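import Vale.Agent.P014Y.Kx.Wd
import Vale.Agent.P014Y.F.Defs

/-! # P014Y: the words shared by the blocks (image, parity, pairs) -/

set_option autoImplicit false
set_option linter.all false

open NumberField Matrix
open scoped Classical

noncomputable section

namespace Vale.Agent.P014Y.Top

open Vale.Agent.P014U
open Vale.Agent.P022 (Qb GQ IsConj)
open P004M.TE (Pt ga)
open P014T.Wm (Fx)
open Bt (Zs)
open F (Crv Fld M2 sd hq)
open Kx (Pl sh)

variable [Pp]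

/-- the representation on the points of order `pp` is onto -/
def Sur {A B : ℤ} (h : 4 * A ^ 3 + 27 * B ^ 2 ≠ 0) : Prop := ∀ M : M2 (ZMod pp), M.det ≠ 0 →
  ∃ g, (X4M.TE.mt (hq h) g).map PadicInt.toZMod = M

/-- the order of the framed Selmer group modulo `pp`; it is `pp ^ (1 + dim Sel)` -/
def sel (A B : ℤ) (S : Finset ℕ) (c : GQ) (P : ℕ → Ideal (𝓞 Qb)) : ℕ :=
  Nat.card {z // z ∈ Zs A B S c P ∧ pp • z = 0}

/-- rank one -/
def Rk1 (A B : ℤ) : Prop := ∃ y ∈ Fx A B ⊤, ¬ IsOfFinAddOrder y ∧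
  ∀ x ∈ Fx A B ⊤, ∃ n : ℤ, IsOfFinAddOrder (x - n • y)

/-- **parity of the Selmer group modulo `pp`** -/
def PARK : Prop := ∀ A B S P c (h : Pl A B S P), IsConj c → Sur h.disc → sh A B S c P ≠ 0 →
  (Finite (Fx A B ⊤) → ∃ k, sel A B S c P = pp ^ (2 * k + 1)) ∧
  (Rk1 A B → ∃ k, sel A B S c P = pp ^ (2 * k))

/-- the sum of the dimensions of the Selmer groups of the curve and of its twist is odd -/
def Par {e : Crv} (b : Fld e) : Prop := ∀ P : ℕ → Ideal (𝓞 Qb), (∀ p ∈ e.S, P p = e.P p) →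
  Pl e.A e.B e.S.toFinset P →
  Pl (e.A * (-b.δ') ^ 2) (e.B * (-b.δ') ^ 3) (e.S.toFinset ∪ b.δ'.primeFactors) P →
  ∃ k, sel e.A e.B e.S.toFinset b.c P * sel (e.A * (-b.δ') ^ 2) (e.B * (-b.δ') ^ 3)
    (e.S.toFinset ∪ b.δ'.primeFactors) b.c P = pp ^ (2 * k + 1)

/-- `e'` is the twist of `e` by `d`, with the same places -/
structure Pr (d : ℤ) (e e' : Crv) : Prop where
  S : e'.S = e.S
  P : e'.P = e.P
  τ : e'.τ = e.τ
  a : ∀ l : ℕ, l.Prime → l ∉ e.S → e'.a l = jacobiSym d l * e.a l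
  r : ∃ M : M2 ℤ_[pp], IsUnit M.det ∧ ∀ g, e'.r g * M = sd d g • (M * e.r g)

end Vale.Agent.P014Y.Top
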