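import Mathlib.LinearAlgebra.Matrix.Determinant.Basic
import Mathlib.LinearAlgebra.Matrix.Trace
import Mathlib.Data.ZMod.Basic

/-! # P014Y: the subgroups of the invertible matrices of size two modulo three -/

set_option linter.all false

open Matrix

namespace Vale.Agent.P014Y.Img

abbrev Z : Type := ZMod 3

abbrev G3 : Type := Matrix (Fin 2) (Fin 2) Z

/-- the model -/
def Q : Type := Z × Z × Z × Z

instance : DecidableEq Q := inferInstanceAs (DecidableEq (Z × Z × Z × Z))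

instance : Fintype Q := inferInstanceAs (Fintype (Z × Z × Z × Z))

def ml (x y : Q) : Q :=
  (x.1 * y.1 + x.2.1 * y.2.2.1, x.1 * y.2.1 + x.2.1 * y.2.2.2,
    x.2.2.1 * y.1 + x.2.2.2 * y.2.2.1, x.2.2.1 * y.2.1 + x.2.2.2 * y.2.2.2)

def ng (x : Q) : Q := (-x.1, -x.2.1, -x.2.2.1, -x.2.2.2)

def dt (x : Q) : Z := x.1 * x.2.2.2 - x.2.1 * x.2.2.1

def o1 : Q := (1, 0, 0, 1)

def tq (m : G3) : Q := (m 0 0, m 0 1, m 1 0, m 1 1)

theorem tq_mul (a b : G3) : tq (a * b) = ml (tq a) (tq b) := by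
  simp only [tq, ml, mul_apply, Fin.sum_univ_two]
  rfl

theorem tq_neg (a : G3) : tq (-a) = ng (tq a) := rfl

theorem tq_one : tq 1 = o1 := rfl

theorem tq_det (a : G3) : dt (tq a) = a.det := (det_fin_two a).symm

theorem tq_inj {a b : G3} : tq a = tq b ↔ a = b := by
  refine ⟨fun h => ?_, congrArg _⟩
  obtain ⟨h1, h2, h3, h4⟩ : a 0 0 = b 0 0 ∧ a 0 1 = b 0 1 ∧ a 1 0 = b 1 0 ∧ a 1 1 = b 1 1 :=
    ⟨congrArg (·.1) h, congrArg (·.2.1) h, congrArg (·.2.2.1) h, congrArg (·.2.2.2) h⟩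
  rw [eta_fin_two a, eta_fin_two b, h1, h2, h3, h4]

/-- `h` fixes the line of `(p, q)` -/
def fx (h : Q) (p q : Z) : Prop :=
  h.1 * p + h.2.1 * q = p ∧ h.2.2.1 * p + h.2.2.2 * q = q ∨
    h.1 * p + h.2.1 * q = -p ∧ h.2.2.1 * p + h.2.2.2 * q = -q

instance (h p q) : Decidable (fx h p q) := by unfold fx; infer_instance

theorem fx_iff (h : G3) (p q : Z) :
    fx (tq h) p q ↔ h *ᵥ ![p, q] = ![p, q] ∨ h *ᵥ ![p, q] = -![p, q] := by
  simp [fx, tq, funext_iff, Fin.forall_fin_two, mulVec, dotProduct, Fin.sum_univ_two]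

/-- words -/
def wd (u v M : Q) : Prop :=
  ∃ a ∈ [o1, u, ml u u, ng o1, ng u, ng (ml u u)], M = a ∨ ∃ c ∈ [o1, u, ml u u], M = ml (ml a v) c

instance (u v M) : Decidable (wd u v M) := by unfold wd; infer_instance

/-- order three -/
def t3 (u : Q) : Prop := u ≠ o1 ∧ ml (ml u u) u = o1

instance (u) : Decidable (t3 u) := by unfold t3; infer_instance

theorem q1 : ∀ u, t3 u → ∀ v, t3 v → ml u v ≠ ml v u →
    (ml (ml u v) (ml u v) = ng o1 ∨ ml (ml (ml u v) (ml u v)) (ml u v) = ng o1) ∧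
      ∀ M, dt M = 1 → wd u v M := by decide +kernel

/-- the inverse -/
def iv (h : Q) : Q := (dt h * h.2.2.2, -(dt h * h.2.1), -(dt h * h.2.2.1), dt h * h.1)

theorem q0 : ∀ h k, ml k h = o1 → k = iv h ∧ dt h ≠ 0 := by decide +kernel

theorem q2 : ∀ u, t3 u → ∃ p q, ¬ (p = 0 ∧ q = 0) ∧ ∀ h, dt h ≠ 0 → ¬ fx h p q →
    t3 (ml (ml h u) (iv h)) ∧ ml u (ml (ml h u) (iv h)) ≠ ml (ml (ml h u) (iv h)) u := by
  decide +kernel

theorem q3 : ∀ c, ml c c = o1 → dt c = -1 → ∃ p q, ¬ (p = 0 ∧ q = 0) ∧ ∀ h, dt h ≠ 0 →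
    ¬ fx h p q → ml c h ≠ ml h c ∧ (dt h = 1 ∧ ml h h = ng o1 ∨
      dt (ml c h) = 1 ∧ ml (ml c h) (ml c h) = ng o1 ∨ ∃ w, w = ml c (ml (ml h c) (iv h)) ∧
        (dt w = 1 ∧ ml w w = ng o1 ∨ t3 w ∨ t3 (ml w w))) := by decide +kernel

theorem q4 : ∀ g, dt g = 1 →
    g = o1 ∨ g = ng o1 ∨ ml g g = ng o1 ∨ t3 g ∨ t3 (ml g g) := by decide +kernel

theorem q5 : ∀ g, dt g ≠ 0 → dt g = 1 ∨ dt g = -1 ∧
    (ml g g = o1 ∨ ml (ml g g) (ml g g) = ng o1) := by decide +kernel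

/-- scalars -/
def sc (a : Z) : Q := (a, 0, 0, a)

theorem q6 : ∀ c, ml c c = o1 → dt c = -1 → ∃ p q, ¬ (p = 0 ∧ q = 0) ∧ ∀ X, ml X c = ml c X →
    X = sc X.1 ∨ ∀ h, dt h ≠ 0 → ¬ fx h p q → ml X h ≠ ml h X := by decide +kernel

theorem q7 : ∀ x, ml (ng o1) x = ng x := by decide +kernel

theorem q8 : ∀ j, ml j j = ng o1 → j.1 + j.2.2.2 = 0 ∧ ∀ p q, fx j p q → p = 0 ∧ q = 0 := by
  decide +kernel

variable {G : Type*} [Group G] {ρ : G → G3}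

/-- a homomorphism -/
structure Hm (ρ : G → G3) : Prop where
  one : ρ 1 = 1
  mul : ∀ g h, ρ (g * h) = ρ g * ρ h

/-- no invariant line -/
def Irr (ρ : G → G3) : Prop := ∀ x : Fin 2 → Z, x ≠ 0 → ∃ g, ρ g *ᵥ x ≠ x ∧ ρ g *ᵥ x ≠ -x

/-- an involution of determinant `-1` -/
def Od (ρ : G → G3) : Prop := ∃ c, ρ c * ρ c = 1 ∧ (ρ c).det = -1

/-- an element of order three -/
def Un (ρ : G → G3) : Prop := ∃ g, ρ g ≠ 1 ∧ ρ g ^ 3 = 1

theorem hm (a : G →* G3) : Hm a := ⟨a.map_one, a.map_mul⟩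

theorem Hm.r (H : Hm ρ) (g h : G) : tq (ρ (g * h)) = ml (tq (ρ g)) (tq (ρ h)) := by
  rw [H.mul, tq_mul]

theorem Hm.iv (H : Hm ρ) (g : G) : tq (ρ g⁻¹) = iv (tq (ρ g)) ∧ dt (tq (ρ g)) ≠ 0 :=
  q0 _ _ (by rw [← H.r, inv_mul_cancel, H.one, tq_one])

theorem Hm.det (H : Hm ρ) (g : G) : (ρ g).det ≠ 0 := tq_det (ρ g) ▸ (H.iv g).2

theorem Hm.pow (H : Hm ρ) (g : G) (n : ℕ) : ρ (g ^ n) = ρ g ^ n := by
  induction n with
  | zero => rw [pow_zero, pow_zero, H.one]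
  | succ n h => rw [pow_succ, pow_succ, H.mul, h]

theorem Irr.mv (I : Irr ρ) {p q : Z} (n : ¬ (p = 0 ∧ q = 0)) : ∃ g, ¬ fx (tq (ρ g)) p q := by
  obtain ⟨g, a, b⟩ := I ![p, q] fun e => n ⟨congrFun e 0, congrFun e 1⟩
  exact ⟨g, fun k => ((fx_iff _ _ _).1 k).elim a b⟩

theorem t3_iff (a : G3) : t3 (tq a) ↔ a ≠ 1 ∧ a ^ 3 = 1 := by
  rw [t3, ← tq_mul, ← tq_mul, ← tq_one, Ne, tq_inj, tq_inj, pow_three']

theorem sq_iff (a : G3) : ml (tq a) (tq a) = ng o1 ↔ a * a = -1 := by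
  rw [← tq_mul, ← tq_one, ← tq_neg, tq_inj]

/-- an element of order three gives all the matrices of determinant one -/
theorem sl (H : Hm ρ) (I : Irr ρ) (U : Un ρ) (M : G3) (d : M.det = 1) : ∃ g, ρ g = M := by
  obtain ⟨u, hu⟩ := U
  have tu := (t3_iff _).2 hu
  obtain ⟨p, q, n, k⟩ := q2 _ tu
  obtain ⟨h, m⟩ := I.mv n
  obtain ⟨tv, nc⟩ := k _ (H.iv h).2 m
  rw [← (H.iv h).1, ← H.r, ← H.r] at tv nc
  set v := h * u * h⁻¹
  obtain ⟨a, w⟩ := q1 _ tu _ tv nc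
  obtain ⟨z, hz⟩ : ∃ z, tq (ρ z) = ng o1 := by
    simp only [← H.r] at a
    exact a.elim (⟨_, ·⟩) (⟨_, ·⟩)
  have o : tq (ρ 1) = o1 := by rw [H.one, tq_one]
  have ng' : ∀ g, ng (tq (ρ g)) = tq (ρ (z * g)) := fun g => by rw [H.r, hz, q7]
  obtain ⟨a, ha, e⟩ := w (tq M) (by rw [tq_det, d])
  obtain ⟨g, rfl⟩ : ∃ g, tq (ρ g) = a := by
    simp only [← o, ← H.r, ng', List.mem_cons, List.not_mem_nil, or_false] at ha
    rcases ha with e | e | e | e | e | e <;> exact ⟨_, e.symm⟩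
  rcases e with e | ⟨c, hc, e⟩
  · exact ⟨g, (tq_inj.1 e).symm⟩
  obtain ⟨g', rfl⟩ : ∃ g, tq (ρ g) = c := by
    simp only [← o, ← H.r, List.mem_cons, List.not_mem_nil, or_false] at hc
    rcases hc with e | e | e <;> exact ⟨_, e.symm⟩
  rw [← H.r, ← H.r] at e
  exact ⟨_, (tq_inj.1 e).symm⟩

/-- **onto** -/
theorem onto (H : Hm ρ) (I : Irr ρ) (C : Od ρ) (U : Un ρ) (M : G3) (d : M.det ≠ 0) :
    ∃ g, ρ g = M := by
  obtain ⟨c, cc, dc⟩ := C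
  rcases q5 (tq M) (by rwa [tq_det]) with e | ⟨e, -⟩ <;> rw [tq_det] at e
  · exact sl H I U M e
  obtain ⟨g, hg⟩ := sl H I U (M * ρ c) (by rw [det_mul, e, dc, neg_mul_neg, one_mul])
  exact ⟨g * c, by rw [H.mul, hg, mul_assoc, cc, mul_one]⟩

theorem core (H : Hm ρ) (I : Irr ρ) (C : Od ρ) : (∃ g h, ρ g * ρ h ≠ ρ h * ρ g) ∧
    ∃ g, (ρ g).det = 1 ∧ ρ g * ρ g = -1 := by
  obtain ⟨c, cc, dc⟩ := C
  obtain ⟨p, q, n, k⟩ := q3 (tq (ρ c)) (by rw [← tq_mul, cc, tq_one]) (by rw [tq_det, dc])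
  obtain ⟨h, m⟩ := I.mv n
  obtain ⟨nc, a⟩ := k _ (H.iv h).2 m
  refine ⟨⟨c, h, fun e => nc (by rw [← tq_mul, e, tq_mul])⟩, ?_⟩
  have f : ∀ g, dt (tq (ρ g)) = 1 ∧ ml (tq (ρ g)) (tq (ρ g)) = ng o1 →
      ∃ g, (ρ g).det = 1 ∧ ρ g * ρ g = -1 := fun g e =>
    ⟨g, tq_det (ρ g) ▸ e.1, (sq_iff _).1 e.2⟩
  have f' : ∀ g, t3 (tq (ρ g)) → ∃ g, (ρ g).det = 1 ∧ ρ g * ρ g = -1 := fun g e => by
    obtain ⟨j, hj⟩ := sl H I ⟨g, (t3_iff _).1 e⟩ !![0, -1; 1, 0] (by decide)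
    exact ⟨j, by rw [hj]; decide⟩
  rw [← (H.iv h).1] at a
  rcases a with a | a | ⟨w, rfl, a⟩
  · exact f _ a
  · exact f (c * h) (by rwa [H.r])
  rw [← H.r, ← H.r, ← H.r] at a
  rcases a with a | a | a
  · exact f _ a
  · exact f' _ a
  · exact f' _ (by rwa [H.r])

/-- **not abelian** -/
theorem nab (H : Hm ρ) (I : Irr ρ) (C : Od ρ) : ∃ g h, ρ g * ρ h ≠ ρ h * ρ g := (core H I C).1

/-- **an element of order four and determinant one** -/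
theorem four (H : Hm ρ) (I : Irr ρ) (C : Od ρ) : ∃ g, (ρ g).det = 1 ∧ ρ g * ρ g = -1 :=
  (core H I C).2

/-- **minus one** -/
theorem neg (H : Hm ρ) (I : Irr ρ) (C : Od ρ) : ∃ g, ρ g = -1 :=
  let ⟨g, h⟩ := four H I C
  ⟨g * g, by rw [H.mul, h.2]⟩

/-- an element of order four has trace zero and fixes no line -/
theorem sq_neg {j : G3} (h : j * j = -1) :
    j.trace = 0 ∧ ∀ x : Fin 2 → Z, j *ᵥ x = x ∨ j *ᵥ x = -x → x = 0 := by
  obtain ⟨a, b⟩ := q8 _ ((sq_iff j).2 h)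
  refine ⟨by rw [trace_fin_two]; exact a, fun x k => ?_⟩
  have e : x = ![x 0, x 1] := by ext i; fin_cases i <;> rfl
  obtain ⟨p, q⟩ := b (x 0) (x 1) ((fx_iff _ _ _).2 (e ▸ k))
  rw [e, p, q]
  ext i; fin_cases i <;> rfl

/-- **Schur** -/
theorem schur (H : Hm ρ) (I : Irr ρ) (C : Od ρ) {X : G3} (h : ∀ g, X * ρ g = ρ g * X) :
    X = X 0 0 • (1 : G3) := by
  obtain ⟨c, cc, dc⟩ := C
  obtain ⟨p, q, n, k⟩ := q6 (tq (ρ c)) (by rw [← tq_mul, cc, tq_one]) (by rw [tq_det, dc])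
  obtain ⟨g, m⟩ := I.mv n
  rcases k (tq X) (by rw [← tq_mul, h, tq_mul]) with e | e
  · exact tq_inj.1 (e.trans (by simp only [tq, sc]; simp; rfl))
  · exact (e _ (H.iv g).2 m (by rw [← tq_mul, h, tq_mul])).elim

/-- **the trichotomy** -/
theorem tri (H : Hm ρ) (C : Od ρ) :
    (∃ x : Fin 2 → Z, x ≠ 0 ∧ ∀ g, ρ g *ᵥ x = x ∨ ρ g *ᵥ x = -x) ∨
      (∀ M : G3, M.det ≠ 0 → ∃ g, ρ g = M) ∨ Irr ρ ∧ ¬ Un ρ := by
  by_cases I : Irr ρ
  · exact .inr ((em (Un ρ)).imp (onto H I C) fun U => ⟨I, U⟩)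
  · obtain ⟨x, k⟩ := not_forall.1 I
    obtain ⟨n, k⟩ := Classical.not_imp.1 k
    exact .inl ⟨x, n, fun g => by_contra fun e => k ⟨g, not_or.1 e⟩⟩

/-- onto implies irreducible -/
theorem irr_of (h : ∀ M : G3, M.det ≠ 0 → ∃ g, ρ g = M) : Irr ρ := fun x n => by
  obtain ⟨g, e⟩ := h !![0, -1; 1, 0] (by decide)
  have := (sq_neg (j := ρ g) (by rw [e]; decide)).2 x
  exact ⟨g, fun k => n (this (.inl k)), fun k => n (this (.inr k))⟩

/-- without elements of order three: determinant one -/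
theorem det_one (H : Hm ρ) (U : ¬ Un ρ) {g : G} (d : (ρ g).det = 1) :
    ρ g = 1 ∨ ρ g = -1 ∨ ρ g * ρ g = -1 := by
  rcases q4 (tq (ρ g)) (by rwa [tq_det]) with e | e | e | e | e
  · exact .inl (tq_inj.1 e)
  · exact .inr (.inl (tq_inj.1 e))
  · exact .inr (.inr ((sq_iff _).1 e))
  · exact (U ⟨g, (t3_iff _).1 e⟩).elim
  · exact (U ⟨g * g, (t3_iff _).1 (by rwa [H.r])⟩).elim

/-- without elements of order three: the stabiliser of a line in determinant one is `± 1` -/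
theorem sb (H : Hm ρ) (U : ¬ Un ρ) {g : G} (d : (ρ g).det = 1) {x : Fin 2 → Z} (n : x ≠ 0)
    (k : ρ g *ᵥ x = x ∨ ρ g *ᵥ x = -x) : ρ g = 1 ∨ ρ g = -1 :=
  (det_one H U d).imp_right fun e => e.resolve_right fun e => n ((sq_neg e).2 x k)

/-- without elements of order three: the exponent divides eight -/
theorem eight (H : Hm ρ) (U : ¬ Un ρ) (g : G) : ρ g ^ 8 = 1 := by
  have d : (ρ (g * g)).det = 1 := by
    rw [H.mul, det_mul]
    have := H.det g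
    revert this
    generalize (ρ g).det = z
    revert z
    decide
  have e : ρ g ^ 8 = ρ (g * g) * ρ (g * g) * (ρ (g * g) * ρ (g * g)) := by
    rw [H.mul]; simp only [pow_succ, pow_zero, one_mul, mul_assoc]
  rw [e]
  rcases det_one H U d with k | k | k <;> simp [k]

theorem anti : ∀ a : G3, a.trace = 0 → ∀ b : G3, b.trace = 0 → (a * b).trace = 0 →
    a * b = -(b * a) := by decide +kernel

/-- **the twist by the determinant**: another trace, or an isomorphism -/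
theorem twd (H : Hm ρ) (I : Irr ρ) (C : Od ρ) : (∃ g, (ρ g).det = -1 ∧ (ρ g).trace ≠ 0) ∨
    ∃ j, (ρ j).det = 1 ∧ ρ j * ρ j = -1 ∧ ∀ g, ρ j * ρ g = (ρ g).det • ρ g * ρ j := by
  by_cases n : ∃ g, (ρ g).det = -1 ∧ (ρ g).trace ≠ 0
  · exact .inl n
  obtain ⟨j, dj, jj⟩ := four H I C
  obtain ⟨c, cc, dc⟩ := C
  have t : ∀ g, (ρ g).det = -1 → (ρ g).trace = 0 := fun g d => by_contra fun e => n ⟨g, d, e⟩
  have a : ∀ g, (ρ g).det = -1 → ρ j * ρ g = -(ρ g * ρ j) := fun g d =>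
    anti _ (sq_neg jj).1 _ (t g d) (H.mul j g ▸ t _ (by rw [H.mul, det_mul, dj, d, one_mul]))
  refine .inr ⟨j, dj, jj, fun g => ?_⟩
  rcases q5 (tq (ρ g)) (H.iv g).2 with e | ⟨e, -⟩ <;> rw [tq_det] at e
  · have k := a (g * c) (by rw [H.mul, det_mul, e, dc, one_mul])
    rw [H.mul, mul_assoc (ρ g), ← mul_neg, ← neg_neg (ρ c * ρ j), ← a c dc, neg_neg,
      ← mul_assoc, ← mul_assoc] at k
    rw [e, one_smul, ← mul_one (ρ j * ρ g), ← cc, ← mul_assoc, k, mul_assoc, cc, mul_one]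
  · rw [e, a g e, neg_smul, one_smul, neg_mul]

end Vale.Agent.P014Y.Img
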