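import Vale.Agent.P014Y.Sur0
import Vale.Agent.P014Y.Img
import Vale.Agent.P014U.Cp.One

/-! # P014Y: irreducible images (tools) -/

set_option autoImplicit false
set_option linter.all false

open Matrix
open scoped Classical

noncomputable section

namespace Vale.Agent.P014Y.Si

open Vale.Agent.P014U
open Vale.Agent.P022 (Qb GQ)
open Vale.Agent.P004F (M2 sd hq)
open P014T.Sm (Md)
open P014T.Kx.Tw (sd_or)
open P004M.TE (Pt ga)
open Sr (π det_π π_unit π_zero)

/-- no stable line -/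
def Nl {G F : Type} [Field F] (a : G → M2 F) : Prop :=
  ∀ x : Fin 2 → F, x ≠ 0 → ∃ g, ∀ t : F, a g *ᵥ x ≠ t • x

section

variable {G F : Type} [Field F] {a a' : G → M2 F} {M : M2 F}

theorem Nl.zero (I : Nl a) (h0 : M.det = 0) (h : ∀ g, a' g * M = M * a g) : M = 0 := by
  obtain ⟨v, v0, hv⟩ := Matrix.exists_mulVec_eq_zero_iff.2 h0
  obtain ⟨g, k⟩ := I v v0
  have hw : M *ᵥ (a g *ᵥ v) = 0 := by rw [mulVec_mulVec, ← h, ← mulVec_mulVec, hv, mulVec_zero]
  generalize a g *ᵥ v = w at k hw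
  have d : v 0 * w 1 - v 1 * w 0 ≠ 0 := fun d => by
    by_cases z : v 0 = 0
    · have z1 : v 1 ≠ 0 := fun e => v0 (by ext i; fin_cases i; exacts [z, e])
      refine k (w 1 / v 1) ?_
      ext i; fin_cases i
      · simpa [z, z1] using d
      · simp [z1]
    · refine k (w 0 / v 0) ?_
      ext i; fin_cases i
      · simp [z]
      · show w 1 = w 0 / v 0 * v 1
        field_simp
        linear_combination d
  ext i j
  have p := congrFun hv i
  have q := congrFun hw i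
  simp only [mulVec, dotProduct, Fin.sum_univ_two, Pi.zero_apply] at p q
  refine mul_right_cancel₀ d ?_
  rw [Matrix.zero_apply, zero_mul]
  fin_cases j
  · show M i 0 * _ = 0
    linear_combination w 1 * p - v 1 * q
  · show M i 1 * _ = 0
    linear_combination v 0 * q - w 0 * p

theorem Nl.cj (I : Nl a) (u : IsUnit M.det) {s : G → F} (s0 : ∀ g, s g ≠ 0)
    (h : ∀ g, a' g * M = s g • (M * a g)) : Nl a' := fun x n => by
  have e : M *ᵥ (M⁻¹ *ᵥ x) = x := by rw [mulVec_mulVec, mul_nonsing_inv _ u, one_mulVec]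
  obtain ⟨g, k⟩ := I (M⁻¹ *ᵥ x) fun z => n (by rw [← e, z, mulVec_zero])
  refine ⟨g, fun t c => k ((s g)⁻¹ * t) ?_⟩
  have := congrArg (fun N => M⁻¹ *ᵥ (N *ᵥ (M⁻¹ *ᵥ x))) (h g)
  simp only [← mulVec_mulVec, e, c, smul_mulVec, mulVec_smul] at this
  rw [mulVec_mulVec, nonsing_inv_mul _ u, one_mulVec] at this
  rw [mul_smul, this, inv_smul_smul₀ (s0 g)]

theorem nl_of (h : ∀ N : M2 F, N.det ≠ 0 → ∃ g, a g = N) : Nl a := fun x n => by
  by_cases z : x 0 = 0
  · obtain ⟨g, e⟩ := h !![1, 1; 0, 1] (by simp)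
    refine ⟨g, fun t c => n ?_⟩
    have := congrFun c 0
    rw [e] at this
    ext i; fin_cases i
    exacts [z, by simpa [mulVec, dotProduct, z] using this]
  by_cases y : x 1 = 0
  · obtain ⟨g, e⟩ := h !![1, 0; 1, 1] (by simp)
    refine ⟨g, fun t c => z ?_⟩
    have := congrFun c 1
    rw [e] at this
    simpa [mulVec, dotProduct, y] using this
  obtain ⟨g, e⟩ := h !![1, 1; 0, 1] (by simp)
  refine ⟨g, fun t c => y ?_⟩
  have p := congrFun c 0
  have q := congrFun c 1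
  rw [e] at p q
  simp only [mulVec, dotProduct, Fin.sum_univ_two, of_apply, cons_val', cons_val_zero,
    cons_val_one, cons_val_fin_one, one_mul, zero_mul, zero_add, Pi.smul_apply, smul_eq_mul] at p q
  have t1 : t = 1 := mul_right_cancel₀ y (by rw [one_mul, ← q])
  rw [t1] at p
  linear_combination p

end

section

variable [Pp]

theorem ex_unit {G : Type} {r r' : G → M2 ℤ_[pp]} (s : Nl fun g => (r g).map π) :
    ∀ (n : ℕ) (M : M2 ℤ_[pp]), ¬ (pp : ℤ_[pp]) ^ n ∣ M.det → (∀ g, r' g * M = M * r g) →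
      ∃ M : M2 ℤ_[pp], IsUnit M.det ∧ ∀ g, r' g * M = M * r g := by
  intro n
  induction n with
  | zero => exact fun M h _ => (h (by simp)).elim
  | succ n ih =>
    intro M h e
    by_cases u : IsUnit M.det
    · exact ⟨M, u, e⟩
    have z : M.map π = 0 := s.zero (a' := fun g => (r' g).map π)
      (by rw [det_π]; exact not_not.1 (mt π_unit.2 u))
      fun g => by rw [← Matrix.map_mul, ← Matrix.map_mul, e]
    choose M₁ hM using fun i j => π_zero.1 (congrFun (congrFun z i) j)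
    have e1 : M = (pp : ℤ_[pp]) • Matrix.of M₁ := by
      ext i j
      exact hM i j
    refine ih (Matrix.of M₁) (fun k => h ?_) fun g => ?_
    · rw [e1, det_smul, Fintype.card_fin, pow_succ', pow_two, mul_assoc]
      exact mul_dvd_mul_left _ (k.mul_left _)
    · have := e g
      rw [e1, mul_smul_comm, smul_mul_assoc] at this
      exact smul_right_injective _ (Nat.cast_ne_zero.2 pp_ne) this

/-- reduction of a conjugation -/
theorem red {G : Type} {r r' : G → M2 ℤ_[pp]} {s : G → ℤ} {M : M2 ℤ_[pp]}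
    (e : ∀ g, r' g * M = s g • (M * r g)) (g : G) :
    (r' g).map π * M.map π = (s g : ZMod pp) • (M.map π * (r g).map π) := by
  have := congrArg (RingHom.mapMatrix (m := Fin 2) π) (e g)
  rw [map_zsmul, map_mul, map_mul] at this
  exact this.trans (Int.cast_smul_eq_zsmul _ _ _).symm

theorem sd_ne (d : ℤ) (g : GQ) : (sd d g : ZMod pp) ≠ 0 := by
  rcases sd_or d g with a | a <;> simp [a]

theorem sd_pow (d : ℤ) (g : GQ) : (sd d g : ZMod pp) ^ 8 = 1 := by
  rcases sd_or d g with a | a <;> simp [a]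
  norm_num

/-- exponent eight is transported -/
theorem eight_cj {F : Type} [Field F] {a a' M : M2 F} {s : F} (u : IsUnit M.det) (s8 : s ^ 8 = 1)
    (h : a' * M = s • (M * a)) (k : a ^ 8 = 1) : a' ^ 8 = 1 := by
  have : ∀ n : ℕ, a' ^ n * M = s ^ n • (M * a ^ n) := fun n => by
    induction n with
    | zero => simp
    | succ n ih =>
      rw [pow_succ' a', Matrix.mul_assoc, ih, mul_smul_comm, ← Matrix.mul_assoc, h, smul_mul_assoc,
        smul_smul, Matrix.mul_assoc, ← pow_succ', ← pow_succ]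
  refine ((isUnit_iff_isUnit_det _).2 u).mul_right_cancel ?_
  rw [this, s8, k, one_smul, Matrix.mul_one, Matrix.one_mul]

end

theorem irr {G : Type} {a : G → M2 (ZMod 3)} (I : Nl a) : Img.Irr a := fun x n =>
  let ⟨g, k⟩ := I x n
  ⟨g, fun e => k 1 (by rw [e, one_smul]), fun e => k (-1) (by rw [e, neg_smul, one_smul])⟩

theorem nl {G : Type} [Group G] {a : G → M2 (ZMod 3)} (H : Img.Hm a) (I : Img.Irr a) : Nl a :=
    fun x n => by
  obtain ⟨g, k1, k2⟩ := I x n
  refine ⟨g, fun t e => ?_⟩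
  rcases (by decide : ∀ t : ZMod 3, t = 0 ∨ t = 1 ∨ t = -1) t with rfl | rfl | rfl
  · rw [zero_smul] at e
    exact H.det g (Matrix.exists_mulVec_eq_zero_iff.1 ⟨x, n, e⟩)
  · exact k1 (by rw [e, one_smul])
  · exact k2 (by rw [e, neg_smul, one_smul])

variable {A B : ℤ} (hD : 4 * (A : ℚ) ^ 3 + 27 * (B : ℚ) ^ 2 ≠ 0)

theorem od : Img.Od (Cp.ab hD) := by
  obtain ⟨c, hc⟩ := P004M.TE.exists_isConj hD
  refine ⟨c, by rw [← map_mul, P004M.TE.conj_sq hD hc, map_one], ?_⟩
  rw [Cp.ab_apply]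
  refine (det_π _).trans ?_
  rw [X4M.TE.det_conj hD hc, map_neg, map_one]

/-- minus one is in the image -/
theorem neg (I : Nl (Cp.ab hD)) : ∃ g, Cp.ab hD g = -1 := Img.neg (Img.hm _) (irr I) (od hD)

theorem nab (I : Nl (Cp.ab hD)) :
    ∃ g h, Cp.ab hD g * Cp.ab hD h ≠ Cp.ab hD h * Cp.ab hD g := Img.nab (Img.hm _) (irr I) (od hD)

/-- onto, or killed by eight -/
theorem two (I : Nl (Cp.ab hD)) : (∀ M : M2 (ZMod 3), M.det ≠ 0 → ∃ g, Cp.ab hD g = M) ∨
    ∀ g, Cp.ab hD g ^ 8 = 1 :=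
  (em (Img.Un (Cp.ab hD))).imp (Img.onto (Img.hm _) (irr I) (od hD)) (Img.eight (Img.hm _))

theorem not_un (n : ¬ ∀ M : M2 (ZMod 3), M.det ≠ 0 → ∃ g, Cp.ab hD g = M) (I : Nl (Cp.ab hD)) :
    ¬ Img.Un (Cp.ab hD) := fun U => n (Img.onto (Img.hm _) (irr I) (od hD) U)

theorem ir0 (E : WeierstrassCurve ℚ) {u r s t : ℚ} (m : Md E A B u r s t)
    (o : ∀ P : P014.Pbar E, P ≠ 0 → 3 • P = 0 →
      ∃ σ : GQ, P014.act E σ P ≠ P ∧ P014.act E σ P ≠ -P) : Nl (Cp.ab hD) :=
  nl (Img.hm _) fun x n => by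
    let i := P014T.Sm.iso m Qb
    obtain ⟨g, k1, k2⟩ := o (i.symm (Cp.vv hD x))
      (fun z => n (Cp.vv_inj hD (by rw [map_zero]; exact i.symm.map_eq_zero_iff.1 z)))
      (by rw [← map_nsmul]; exact i.symm.map_eq_zero_iff.2 (Cp.vv_pp hD x))
    have e : i (P014.act E g (i.symm (Cp.vv hD x))) = Cp.vv hD (Cp.ab hD g *ᵥ x) := by
      rw [P014T.Sm.iso_act, AddEquiv.apply_symm_apply]
      exact Cp.ga_vv hD g x
    exact ⟨g, fun c => k1 (i.injective (by rw [e, c, AddEquiv.apply_symm_apply])),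
      fun c => k2 (i.injective (by rw [e, c, map_neg, map_neg, AddEquiv.apply_symm_apply]))⟩

/-- the converse -/
theorem ir0' (E : WeierstrassCurve ℚ) {u r s t : ℚ} (m : Md E A B u r s t) (I : Nl (Cp.ab hD))
    (P : P014.Pbar E) (n : P ≠ 0) (h : 3 • P = 0) :
    ∃ σ : GQ, P014.act E σ P ≠ P ∧ P014.act E σ P ≠ -P := by
  let i := P014T.Sm.iso m Qb
  obtain ⟨x, hx⟩ := Cp.ex_vv hD (t := i P) (by rw [pow_one, ← map_nsmul]; exact i.map_eq_zero_iff.2 h)
  obtain ⟨g, k1, k2⟩ := irr I x fun z => n (i.map_eq_zero_iff.1 (by rw [← hx, z, map_zero]))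
  have e : i (P014.act E g P) = Cp.vv hD (Cp.ab hD g *ᵥ x) := by
    rw [P014T.Sm.iso_act, ← hx]
    exact Cp.ga_vv hD g x
  exact ⟨g, fun c => k1 (Cp.vv_inj hD (by rw [← e, c, hx])),
    fun c => k2 (Cp.vv_inj hD (by rw [← e, c, map_neg, map_neg, hx]))⟩

end Vale.Agent.P014Y.Si
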