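import Vale.Agent.P014Y.St2
import Vale.Agent.P014Y.Sui0
import Vale.Agent.P014Y.F.Pt.Kd

/-! # P014Y: rows IRT, IR0 and IMG -/

set_option autoImplicit false
set_option linter.all false

open Matrix
open scoped Classical

noncomputable section

namespace Vale.Agent.P014Y.Top

open Vale.Agent.P014U
open F (Crv Fld sd hq)
open Sr (sd1 ex_pow det_π π)

/-- **row IRT** -/
theorem irt [Pp] : IRT := fun A B A' B' h h' => by
  refine ⟨fun s => Si.nl_of s, fun f s => ?_, fun d ⟨M, u, e⟩ s => ?_⟩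
  · obtain ⟨M, m0, e⟩ := Ig.isog_mat (hq h') (hq h) (f.subset fun p k => ⟨k.1, k.2.symm⟩)
    obtain ⟨n, hn⟩ := ex_pow m0
    obtain ⟨M, u, e⟩ := Si.ex_unit s n M hn e
    exact ⟨M, u, fun g => by rw [sd1, one_smul, e]⟩
  · exact Si.Nl.cj s (M := M.map π) (by rw [det_π]; exact u.map π) (Si.sd_ne d) (Si.red e)

/-- exponent eight is transported -/
theorem eight_cj [Pp] {A B A' B' d : ℤ} {h : P014U.Top.El A B} {h' : P014U.Top.El A' B'}
    (c : Cj d h h') (k : ∀ g, Cp.ab (hq h) g ^ 8 = 1) (g) : Cp.ab (hq h') g ^ 8 = 1 :=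
  let ⟨M, u, e⟩ := c
  Si.eight_cj (M := M.map π) (by rw [det_π]; exact u.map π) (Si.sd_pow d g) (Si.red e g) (k g)

/-- **row IR0** -/
theorem ir0 : IR0 := fun E _ _ _ _ _ _ _ m o => Si.ir0 (hq m.hD) E m o

theorem nf_of [Pp] {e : Crv} (b : Fld e) (s : ∃ g, Mu.rb e g = -1) : Mu.Nf (Mu.rb e) b.Γ :=
    fun v h => by
  obtain ⟨g, k⟩ := s
  obtain ⟨x, m, j⟩ := b.onto g
  have a : Mu.rb e x = -1 := (congrArg (·.map PadicInt.toZMod) j).trans k
  have c := h x m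
  rw [a, neg_mulVec, one_mulVec] at c
  exact (smul_eq_zero.1 (show (2 : Mu.F) • v = 0 by
    rw [two_smul]; exact (congrArg (· + v) c.symm).trans (neg_add_cancel v))).resolve_left two_ne

/-- **row IMG** -/
theorem img : IMG := fun e s =>
  ⟨⟨Si.neg _ s, Si.nab _ s⟩, fun b => nf_of b (Si.neg _ s)⟩

/-- onto, or killed by eight -/
theorem sur_or {A B : ℤ} (h : P014U.Top.El A B) (s : Irr h) :
    Sur h ∨ ∀ g, Cp.ab (hq h) g ^ 8 = 1 := Si.two _ s

end Vale.Agent.P014Y.Top
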