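import Mathlib

/-!
# P014 Y: finite modules over the integers of a cyclotomic field of prime power level
-/

set_option autoImplicit false
set_option linter.all false

noncomputable section

namespace Vale.Agent.P014Y.Ol

open Subgroup Polynomial Finset

theorem phi_poly {p : ℕ} (hp : p.Prime) (m : ℕ) : ∃ h : ℤ[X],
    ∑ i ∈ range p, (1 + X) ^ (i * p ^ m) = X ^ ((p - 1) * p ^ m) + C (p : ℤ) * (1 + X * h) := by
  haveI := Fact.mk hp
  have e0 : (p - 1) * p ^ m ≠ 0 := mul_ne_zero (by have := hp.two_le; omega) (pow_ne_zero _ hp.ne_zero)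
  have e1 : (∑ i ∈ range p, (1 + X : ℤ[X]) ^ (i * p ^ m) - X ^ ((p - 1) * p ^ m)).map
      (Int.castRingHom (ZMod p)) = 0 := by
    have a1 : (1 + X : (ZMod p)[X]) ^ p ^ m = X ^ p ^ m + 1 := by
      rw [add_comm, add_pow_char_pow, one_pow]
    have a2 : (X : (ZMod p)[X]) ^ p ^ m ≠ 0 := pow_ne_zero _ X_ne_zero
    simp only [Polynomial.map_sub, Polynomial.map_sum, Polynomial.map_pow, Polynomial.map_add,
      Polynomial.map_one, map_X, mul_comm _ (p ^ m), pow_mul, a1]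
    refine sub_eq_zero.2 (mul_right_cancel₀ a2 ?_)
    have a3 := geom_sum_mul_add ((X : (ZMod p)[X]) ^ p ^ m) p
    rw [add_pow_char, one_pow] at a3
    rw [add_right_cancel a3, ← pow_succ, Nat.sub_add_cancel hp.one_le]
  obtain ⟨u, hu⟩ : C (p : ℤ) ∣ ∑ i ∈ range p, (1 + X : ℤ[X]) ^ (i * p ^ m) -
      X ^ ((p - 1) * p ^ m) := by
    rw [C_dvd_iff_dvd_coeff]
    intro i
    rw [← ZMod.intCast_zmod_eq_zero_iff_dvd]
    have := congrArg (coeff · i) e1
    simpa only [coeff_map, coeff_zero, eq_intCast] using this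
  have e2 : u.coeff 0 = 1 := by
    have := congrArg (eval 0) hu
    simp only [eval_sub, eval_finset_sum, eval_pow, eval_add, eval_one, eval_X, add_zero, one_pow,
      sum_const, card_range, zero_pow e0, sub_zero, eval_mul, eval_C, nsmul_eq_mul, mul_one] at this
    rw [coeff_zero_eq_eval_zero]
    exact mul_left_cancel₀ (Int.natCast_ne_zero.2 hp.ne_zero) (by rw [← this, mul_one])
  refine ⟨u.divX, ?_⟩
  rw [sub_eq_iff_eq_add'.1 hu, add_comm 1, ← C_1, ← e2, X_mul_divX_add]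

section

variable {A : Type} [AddCommGroup A] {p : ℕ}

/-- the multiples -/
def db (p : ℕ) (A : Type) [AddCommGroup A] : AddSubgroup A := (nsmulAddMonoidHom p : A →+ A).range

theorem mem_db {a : A} : a ∈ db p A ↔ ∃ b, p • b = a := Iff.rfl

theorem end_rel (hp : p.Prime) (s : Module.End ℤ A) (m : ℕ)
    (hs : ∑ i ∈ range p, s ^ (i * p ^ m) = 0) :
    ∃ h : Module.End ℤ A, ∀ a, ((s - 1) ^ ((p - 1) * p ^ m) : Module.End ℤ A) a =
      -(p • a) - (s - 1 : Module.End ℤ A) (p • h a) := by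
  obtain ⟨h, e⟩ := phi_poly hp m
  have e1 := congrArg (aeval (s - 1)) e
  simp only [map_pow, map_add, map_one, aeval_X, map_mul, add_sub_cancel, hs, map_sum,
    map_natCast] at e1
  refine ⟨aeval (s - 1) h, fun a => ?_⟩
  have e2 := congrArg (fun φ : Module.End ℤ A => φ a) e1
  simp only [LinearMap.zero_apply, Module.End.one_apply, LinearMap.add_apply, Module.End.mul_apply,
    Module.End.natCast_apply] at e2
  rw [map_nsmul, eq_neg_of_add_eq_zero_left e2.symm, nsmul_add]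
  abel

theorem p_dvd (hp : p.Prime) {P Q : AddSubgroup A} (h : ∀ x ∈ P, p • x ∈ Q) (n : ¬ P ≤ Q) :
    p ∣ Q.relIndex P := by
  by_contra k
  refine n fun x hx => ?_
  obtain ⟨a, b, e⟩ := Nat.isCoprime_iff_coprime.2 ((Nat.Prime.coprime_iff_not_dvd hp).2 k)
  have : x = a • p • x + b • Q.relIndex P • x := by
    rw [← natCast_zsmul, ← natCast_zsmul, smul_smul, smul_smul, ← add_smul, e, one_smul]
  rw [this]
  exact add_mem (zsmul_mem (h x hx) _) (zsmul_mem (AddSubgroup.nsmul_relIndex_mem Q hx) _)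

theorem low [Finite A] (hp : p.Prime) (f : Module.End ℤ A) (n : ℕ)
    (h0 : ∀ a, (f ^ (n + 1)) a ∈ db p A) (hi : (db p A).index < p ^ (n + 1)) (a : A) :
    (f ^ n) a ∈ db p A := by
  let P : ℕ → AddSubgroup A := fun i => (db p A) ⊔ (f ^ i).toAddMonoidHom.range
  have mem : ∀ i x, x ∈ P i ↔ ∃ b c, x = p • b + (f ^ i) c := fun i x => by
    simp only [P, AddSubgroup.mem_sup]
    exact ⟨fun ⟨_, ⟨b, hb⟩, _, ⟨c, hc⟩, k⟩ => ⟨b, c, by rw [← k, ← hb, ← hc]; rfl⟩,
      fun ⟨b, c, k⟩ => ⟨_, ⟨b, rfl⟩, _, ⟨c, rfl⟩, k.symm⟩⟩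
  have le : ∀ i, P (i + 1) ≤ P i := fun i x hx => by
    obtain ⟨b, c, rfl⟩ := (mem _ _).1 hx
    exact (mem _ _).2 ⟨b, f c, by rw [pow_succ, Module.End.mul_apply]⟩
  have st : ∀ i, P i ≤ P (i + 1) → P (i + 1) ≤ P (i + 2) := fun i h x hx => by
    obtain ⟨b, c, rfl⟩ := (mem _ _).1 hx
    obtain ⟨b', c', k⟩ := (mem _ _).1 (h ((mem i ((f ^ i) c)).2 ⟨0, c, by simp⟩))
    refine (mem _ _).2 ⟨b + f b', c', ?_⟩
    rw [pow_succ' f i, Module.End.mul_apply, k, map_add, map_nsmul, pow_succ' f (i + 1),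
      Module.End.mul_apply, nsmul_add, add_assoc]
  have top : P (n + 1) ≤ db p A := sup_le le_rfl (by rintro _ ⟨c, rfl⟩; exact h0 c)
  by_contra hc
  have ne : ∀ k i, i + k = n → ¬ P i ≤ P (i + 1) := by
    intro k
    induction k with
    | zero =>
      intro i hi' h
      rw [add_zero] at hi'
      subst hi'
      exact hc (top (h ((mem _ _).2 ⟨0, a, by simp⟩)))
    | succ k ih => exact fun i hi' h => ih (i + 1) (by omega) (st i h)
  have big : ∀ i, i ≤ n + 1 → p ^ i ≤ (P i).index := by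
    intro i
    induction i with
    | zero => exact fun _ => Nat.pos_of_ne_zero AddSubgroup.index_ne_zero_of_finite
    | succ i ih =>
      intro hi'
      have h1 := AddSubgroup.relIndex_mul_index (le i)
      have h2 : p ∣ (P (i + 1)).relIndex (P i) :=
        p_dvd hp (fun x _ => AddSubgroup.mem_sup_left ⟨x, rfl⟩) (ne (n - i) i (by omega))
      have h3 : (P (i + 1)).relIndex (P i) ≠ 0 := AddSubgroup.index_ne_zero_of_finite
      have h4 := ih (by omega)
      rw [← h1, pow_succ']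
      exact Nat.mul_le_mul (Nat.le_of_dvd (Nat.pos_of_ne_zero h3) h2) h4
  have h5 := big (n + 1) le_rfl
  rw [show P (n + 1) = db p A from le_antisymm top le_sup_left] at h5
  omega

theorem olem0 [Finite A] (hp : p.Prime) (s : Module.End ℤ A) (m : ℕ)
    (hs : ∑ i ∈ range p, s ^ (i * p ^ m) = 0) (hi : (db p A).index < p ^ ((p - 1) * p ^ m)) :
    ∃ b o, ¬ p ∣ o ∧ (db p A).index = p ^ b ∧ Nat.card A = p ^ b * o := by
  haveI := Fact.mk hp
  obtain ⟨h, e⟩ := end_rel hp s m hs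
  obtain ⟨k, hk⟩ := Nat.exists_eq_succ_of_ne_zero (mul_ne_zero
    (by have := hp.two_le; omega : p - 1 ≠ 0) (pow_ne_zero m hp.ne_zero))
  rw [hk, Nat.succ_eq_add_one] at e hi
  set f := s - 1
  have h0 : ∀ a, (f ^ (k + 1)) a = p • (-a - f (h a)) := fun a => by
    rw [e, map_nsmul, nsmul_sub, neg_nsmul]
  have h1 := low hp f k (fun a => ⟨_, (h0 a).symm⟩) hi
  have h2 : ∀ a, ∃ b, p • a = f (p • b) := fun a => by
    obtain ⟨c, hc⟩ := mem_db.1 (h1 a)
    refine ⟨-c - h a, ?_⟩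
    have := e a
    rw [pow_succ', Module.End.mul_apply, ← hc] at this
    rw [nsmul_sub, neg_nsmul, map_sub, map_neg, this]
    abel
  have h3 : ∀ i a, ∃ b, p • a = (f ^ i) (p • b) := fun i => by
    induction i with
    | zero => exact fun a => ⟨a, rfl⟩
    | succ i ih =>
      intro a
      obtain ⟨b, hb⟩ := ih a
      obtain ⟨c, hc⟩ := h2 b
      exact ⟨c, by rw [hb, hc, pow_succ, Module.End.mul_apply]⟩
  have h4 : Function.Surjective (nsmulAddMonoidHom p : db p A →+ db p A) := by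
    rintro ⟨_, a, rfl⟩
    obtain ⟨b, hb⟩ := h3 (k + 1) a
    refine ⟨⟨p • (-b - f (h b)), _, rfl⟩, Subtype.ext ?_⟩
    show p • p • (-b - f (h b)) = p • a
    rw [hb, map_nsmul, h0]
  have h5 := Finite.injective_iff_surjective.2 h4
  have h6 : ¬ p ∣ Nat.card (db p A) := by
    intro k2
    obtain ⟨x, hx⟩ := exists_prime_addOrderOf_dvd_card' (G := db p A) p k2
    have : x = 0 := h5 (by
      rw [map_zero]
      exact (hx ▸ addOrderOf_nsmul_eq_zero x :))
    rw [this, addOrderOf_zero] at hx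
    exact hp.one_lt.ne hx
  have h7 : IsPGroup p (Multiplicative (A ⧸ db p A)) := fun x => ⟨1, by
    obtain ⟨a, ha⟩ := QuotientAddGroup.mk_surjective x.toAdd
    apply Multiplicative.toAdd.injective
    rw [toAdd_pow, ← ha, toAdd_one, ← QuotientAddGroup.mk_nsmul, QuotientAddGroup.eq_zero_iff,
      pow_one]
    exact ⟨a, rfl⟩⟩
  obtain ⟨b, hb⟩ := IsPGroup.iff_card.1 h7
  have h8 : (db p A).index = p ^ b := hb
  exact ⟨b, _, h6, h8, by rw [← h8, mul_comm, AddSubgroup.card_mul_index]⟩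

end

/-- the powers -/
abbrev pw (p : ℕ) (A : Type) [CommGroup A] : Subgroup A := (powMonoidHom p : A →* A).range

theorem olem' {B : Type} [CommGroup B] [Finite B] {p : ℕ} (hp : p.Prime) (s : B →* B) (m : ℕ)
    (hs : ∀ x, ∏ i ∈ range p, s^[i * p ^ m] x = 1) (hi : (pw p B).index < p ^ ((p - 1) * p ^ m)) :
    ∃ b o, ¬ p ∣ o ∧ (pw p B).index = p ^ b ∧ Nat.card B = p ^ b * o := by
  have e : (pw p B).index = (db p (Additive B)).index := rfl
  rw [e] at hi ⊢
  refine olem0 (A := Additive B) hp (MonoidHom.toAdditive s).toIntLinearMap m ?_ hi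
  ext x
  simp only [LinearMap.sum_apply, Module.End.pow_apply]
  refine Additive.toMul.injective ?_
  rw [toMul_sum]
  exact hs x

theorem olem {G : Type} [CommGroup G] {p : ℕ} (hp : p.Prime) {H K : Subgroup G} (γ : G →* G)
    (hH : ∀ x ∈ H, γ x ∈ H) (hK : ∀ x ∈ K, γ x ∈ K) (m : ℕ)
    (hs : ∀ x ∈ K, ∏ i ∈ range p, γ^[i * p ^ m] x ∈ H) (h0 : H.relIndex K ≠ 0)
    (hi : H.relIndex (K ⊓ H.comap (powMonoidHom p)) < p ^ ((p - 1) * p ^ m)) :
    ∃ b, H.relIndex (K ⊓ H.comap (powMonoidHom p)) = p ^ b ∧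
      padicValNat p (H.relIndex K) = b := by
  haveI := Fact.mk hp
  have : Finite (K ⧸ H.subgroupOf K) := Nat.finite_of_card_ne_zero h0
  set σ : K →* K := (γ.comp K.subtype).codRestrict K fun x => hK _ x.2 with hσ
  have st : H.subgroupOf K ≤ (H.subgroupOf K).comap σ := fun x hx => hH _ hx
  have e : (pw p (K ⧸ H.subgroupOf K)).index = H.relIndex (K ⊓ H.comap (powMonoidHom p)) := by
    rw [index_range, ← inf_comm, ← relIndex_subgroupOf inf_le_right, inf_subgroupOf_right]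
    conv_rhs => rw [← QuotientGroup.ker_mk' (H.subgroupOf K), relIndex_ker]
    congr 2
    ext q
    obtain ⟨x, rfl⟩ := QuotientGroup.mk_surjective q
    rw [MonoidHom.mem_ker, powMonoidHom_apply, ← QuotientGroup.mk_pow, QuotientGroup.eq_one_iff]
    refine ⟨fun k => ⟨x, k, rfl⟩, fun ⟨y, hy, e⟩ => ?_⟩
    rw [← QuotientGroup.eq_one_iff, QuotientGroup.mk_pow, ← e, QuotientGroup.mk'_apply,
      ← QuotientGroup.mk_pow, QuotientGroup.eq_one_iff]
    exact hy
  obtain ⟨b, o, ho, k1, k2⟩ := olem' hp (QuotientGroup.map _ _ σ st) m (fun q => by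
    obtain ⟨x, rfl⟩ := QuotientGroup.mk_surjective q
    have : ∀ i, (QuotientGroup.map _ _ σ st)^[i] (x : K ⧸ H.subgroupOf K) = (σ^[i] x : K) ∧
        (σ^[i] x).1 = γ^[i] x.1 := fun i => by
      induction i with
      | zero => exact ⟨rfl, rfl⟩
      | succ i ih =>
        simp only [Function.iterate_succ_apply', ih.1, ← ih.2]
        exact ⟨rfl, rfl⟩
    simp only [(this _).1]
    rw [← QuotientGroup.mk_prod, QuotientGroup.eq_one_iff, mem_subgroupOf, SubmonoidClass.coe_finset_prod]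
    simp only [(this _).2]
    exact hs _ x.2) (e ▸ hi)
  refine ⟨b, e ▸ k1, ?_⟩
  have o0 : o ≠ 0 := fun k => ho (k ▸ dvd_zero p)
  rw [show H.relIndex K = p ^ b * o from k2, padicValNat.mul (pow_ne_zero _ hp.ne_zero) o0,
    padicValNat.prime_pow, padicValNat.eq_zero_of_not_dvd ho, add_zero]

/-- the prime three -/
theorem olem3 {G : Type} [CommGroup G] {H K : Subgroup G} (γ : G →* G)
    (hH : ∀ x ∈ H, γ x ∈ H) (hK : ∀ x ∈ K, γ x ∈ K) (m : ℕ)
    (hs : ∀ x ∈ K, x * γ^[3 ^ m] x * γ^[3 ^ m] (γ^[3 ^ m] x) ∈ H) (h0 : H.relIndex K ≠ 0)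
    (hi : H.relIndex (K ⊓ H.comap (powMonoidHom 3)) < 3 ^ (2 * 3 ^ m)) :
    ∃ b, H.relIndex (K ⊓ H.comap (powMonoidHom 3)) = 3 ^ b ∧
      padicValNat 3 (H.relIndex K) = b :=
  olem Nat.prime_three γ hH hK m (fun x hx => by
    simpa only [prod_range_succ, prod_range_zero, one_mul, zero_mul, Function.iterate_zero, id,
      two_mul, Function.iterate_add_apply] using hs x hx) h0 hi

theorem olem3' {B : Type} [CommGroup B] [Finite B] (s : B →* B) (m : ℕ)
    (hs : ∀ x, x * s^[3 ^ m] x * s^[3 ^ m] (s^[3 ^ m] x) = 1)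
    (hi : (pw 3 B).index < 3 ^ (2 * 3 ^ m)) :
    ∃ b o, ¬ 3 ∣ o ∧ (pw 3 B).index = 3 ^ b ∧ Nat.card B = 3 ^ b * o :=
  olem' Nat.prime_three s m (fun x => by
    simpa only [prod_range_succ, prod_range_zero, one_mul, zero_mul, Function.iterate_zero, id,
      two_mul, Function.iterate_add_apply] using hs x) hi

end Vale.Agent.P014Y.Ol
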