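import Vale.Agent.P014Y.C.Al.Alx
import Vale.Agent.P014Y.C.Al.AxAll
import Vale.Agent.P014Y.C.Al.Cb3
import Vale.Agent.P014Y.C.Al.Chr
import Vale.Agent.P014Y.C.Al.Cor
import Vale.Agent.P014Y.C.Al.Dic
import Vale.Agent.P014Y.C.Al.Fld
import Vale.Agent.P014Y.C.Al.Gal
import Vale.Agent.P014Y.C.Al.Hb
import Vale.Agent.P014Y.C.Al.Jm2
import Vale.Agent.P014Y.C.Al.Mea
import Vale.Agent.P014Y.C.Al.Pra
import Vale.Agent.P014Y.C.Al.Pri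
import Vale.Agent.P014Y.C.Al.Prn1
import Vale.Agent.P014Y.C.Al.Smx
import Vale.Agent.P014Y.C.Al.Tw2
import Vale.Agent.P014Y.C.Ld.All
import Vale.Agent.P014Y.Ln.All
import Vale.Agent.P014Y.Tp.All

/-! # P014Y.Top: wiring -/

set_option autoImplicit false

namespace Vale.Agent.P014Y.Top

theorem alx_all : P014Y.Tp.ALX1 :=
  have hjm : P014Y.C.Al.JM := P014Y.C.Al.jm' P014Y.C.Al.two'
  have hpra : P014Y.C.Al.PRA := P014Y.C.Al.pra P014Y.C.Al.pq P014Y.C.Al.pj0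
  have hprn : P014Y.C.Al.PRN := P014Y.C.Al.prn P014Y.C.Cg.bnd P014Y.C.Cg.bndr' P014Y.C.Ld.lead
      P014Y.C.Al.smx P014Y.C.Al.lcm P014Y.C.Al.mea P014Y.C.Al.spl
  have hcb3 : P014Y.C.Al.CB3 := P014Y.C.Al.cb3 P014Y.C.Cg.bndr' P014Y.C.Al.lcm P014Y.C.Al.mea
      P014Y.C.Al.smx
  have hcor : P014Y.C.Al.COR := P014Y.C.Al.cor P014Y.C.Al.gbx P014Y.C.Al.cplx P014Y.C.Al.mjxx
      P014Y.C.Al.bupx P014Y.C.Al.pc hjm hpra hprn hcb3 P014Y.C.Al.cnt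
  have hmp3 : P014Y.C.Al.MP3 := P014Y.C.Al.mp3 P014Y.C.Al.pq P014Y.C.Al.pc
  have hhb : P014Y.C.Al.HB := P014Y.C.Al.hb P014Y.C.Al.pq P014Y.C.Al.pc P014Y.C.Al.rku hmp3
  have hgal : P014Y.C.Al.GAL := P014Y.C.Al.gal P014Y.C.Al.trc
  have hchr : P014Y.C.Al.CHR := P014Y.C.Al.chr P014Y.C.Al.qcx
  P014Y.C.Al.alx1 hcor hhb P014Y.C.Al.fld hgal hchr P014Y.C.Al.dic
      P014Y.C.Al.gbx P004C.Al.icx

theorem on0 : P014Y.Tp.ON2 := P014Y.Tp.on2_all alx_all P014Y.Ln.ana_all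

end Vale.Agent.P014Y.Top
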