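import Vale.Agent.P014Y.Cmn
import Vale.Agent.P014Y.On0
import Vale.Agent.P014Y.Kp.All

/-! # P014Y: the closed form, irreducible images -/

namespace Vale.Agent.P014Y.Top

theorem irr_all : BSDY Irr3 := irr_on on0 Kp.pa2_all

end Vale.Agent.P014Y.Top
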