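import Vale.Agent.P014U.Base

/-! # P014Y: the prime three -/

set_option linter.all false

namespace Vale.Agent.P014Y

open Vale.Agent.P014U

/-- the prime three -/
instance i3 : Pp := ⟨3, Nat.prime_three, by decide⟩

theorem pp3 : pp = 3 := rfl

end Vale.Agent.P014Y
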