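import Vale.Agent.P014Y.Fin3
import Vale.Agent.P014Y.Kp.St2
import Vale.Agent.P014Y.Rg.St

/-! # P014Y: the exports of the blocks in the words of the top level -/

set_option autoImplicit false
set_option linter.all false

namespace Vale.Agent.P014Y.Top

open Vale.Agent.P014U

theorem pa2_of (img : IMG) (h : Kp.PA3) : PA2 := fun e b i pl _ =>
  h e b pl i (img e i).1.1 ((img e i).2 b)

theorem ran_of (h : Rg.ANR) : RAN := fun e n => by
  simp only [Irr, not_forall, not_exists, not_not] at n
  obtain ⟨x, x0, k⟩ := n
  exact (h e ⟨x, x0, k⟩).imp fun _ a b l _ => a b l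

end Vale.Agent.P014Y.Top
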