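import Vale.Agent.P014.Defs

/-! # P014Y: one more word of the statement -/

namespace Vale.Agent.P014Y

open Vale.Agent.P014
open scoped Classical

/-- There is no rational isogeny of degree three: no subgroup `{0, P, -P}` of order three of `E(ℚ̄)`
is stable under the absolute Galois group. -/
def Irr3 (E : WeierstrassCurve ℚ) : Prop :=
  ∀ P : Pbar E, P ≠ 0 → 3 • P = 0 → ∃ σ : GQ, act E σ P ≠ P ∧ act E σ P ≠ -P

end Vale.Agent.P014Y
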