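import Vale.Agent.P014Y.St
import Vale.Agent.P014Y.Wd2
import Vale.Agent.P014Y.Mu.St

/-! # P014Y: the top level for irreducible and reducible images (words and rows) -/

set_option autoImplicit false
set_option linter.all false

open Matrix
open scoped Classical

noncomputable section

namespace Vale.Agent.P014Y.Top

open Vale.Agent.P014U Vale.Agent.P014U.Top
open F (Crv Fld hq)
open P014T.Sm (Md)
open Mu (rb tw Sd Pa)
open Tp (Ng Ad2)

section

variable [Pp]

/-- no invariant line modulo `pp` -/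
def Irr {A B : ℤ} (h : El A B) : Prop := ∀ x : Fin 2 → ZMod pp, x ≠ 0 →
  ∃ g, ∀ t : ZMod pp, Cp.ab (hq h) g *ᵥ x ≠ t • x

/-- the parity input in the residual words -/
def Pe {e : Crv} (b : Fld e) : Prop := ∀ pl : X4S.Pl, (∀ p ∈ e.S, pl.P p = e.P p) →
  Pa (rb e) (tw (-b.δ') (rb e)) pl e.S.toFinset (Sd b)

/-- the bridge for an irreducible image -/
def BRI : Prop := ∀ (e : Crv) (b : Fld e), Irr e.par.disc → Par b → Pe b

/-- transport -/
def IRT : Prop := ∀ (A B A' B' : ℤ) (h : El A B) (h' : El A' B'), (Sur h → Irr h) ∧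
  (Ae A B A' B' → Irr h → Cj 1 h h') ∧ ∀ d, Cj d h h' → Irr h → Irr h'

end

/-- the word of the statement -/
def IR0 : Prop := ∀ (E : WeierstrassCurve ℚ) [E.IsElliptic] (A B : ℤ) u r s t (m : Md E A B u r s t),
  Irr3 E → Irr m.hD

/-- the image -/
def IMG : Prop := ∀ e : Crv, Irr e.par.disc → Ng e ∧ ∀ b : Fld e, Mu.Nf (rb e) b.Γ

/-- **parity from Heegner points, onto** -/
def PA1 : Prop := ∀ (e : Crv) (b : Fld e), Sur e.par.disc → Pe b

/-- **parity from Heegner points** -/
def PA2 : Prop := ∀ (e : Crv) (b : Fld e), Irr e.par.disc → Pe b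

/-- the tower, onto -/
def ADS : Prop := ∀ (e e' : Crv) (b : Fld e) (b' : Fld e'), Pr (-3) e e' → b.Same b' →
  Sur e.par.disc → Pe b → Pe b' → Ad2 b b'

/-- **the tower, irreducible and not onto** -/
def ADD : Prop := ∀ (e e' : Crv) (b : Fld e) (b' : Fld e'), Pr (-3) e e' → b.Same b' →
  Irr e.par.disc → ¬ Sur e.par.disc → Pe b → Pe b' → Ad2 b b'

/-- a class of curves with the formula at three -/
def KK (C : ∀ A B : ℤ, El A B → Prop) : Prop :=
  ∀ (A B : ℤ) (h : El A B), C A B h → ∀ r ≤ 1, Ar A B r → Di A B r 0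

/-- **the reducible case** -/
def KKR : Prop := KK fun _ _ h => ¬ Irr h

end Vale.Agent.P014Y.Top
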