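import Vale.Agent.P014Y.Cmn
import Vale.Agent.P014Y.On0
import Vale.Agent.P014Y.Brd
import Vale.Agent.P014Y.Kp.All
import Vale.Agent.P014Y.Rg.All

/-! # P014Y: the closed form -/

namespace Vale.Agent.P014Y.Top

/-- **the formula up to a natural number prime to six** -/
theorem bsd6_all : BSD6 :=
  bsd6_of P014X.Top.bsdm_all (cmn on0) ads0 Md.add0 Kp.pa2_all (ran_of Rg.anr_all)

end Vale.Agent.P014Y.Top
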