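import Vale.Agent.P014Y.St
import Vale.Agent.P014Y.Kt.An
import Vale.Agent.P014Y.Tp.St
import Vale.Agent.P014W.Ent
import Vale.Agent.P004T.Adm

/-! # P014Y: the glue of the top level -/

set_option autoImplicit false
set_option linter.all false

open NumberField Matrix UpperHalfPlane
open scoped Classical NumberTheorySymbols

noncomputable section

namespace Vale.Agent.P014Y.Top

open Vale.Agent.P014U Vale.Agent.P014U.Top
open F (Crv Fld M2 sd hq CRV FLD FX FU)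
open P014T.Lk P014T.Lc
open P014T.An (M0 M1)
open P014T.Kx.Tw (Tq tq sd_eq_one sd_or)
open P014T.Top (LGU)
open P004M.TE (al)
open Kt (CNT Ord)
open Kt.An

variable {A B A' B' : ℤ} {N r k : ℕ} {G : ℍ → ℂ} {a : ℕ → ℤ}

theorem ar_iff (h : El A B) (nf : Nf A B N G a) : (Ar A B 0 ↔ M0 (fun n => (a n : ℂ)) ≠ 0) ∧
    (Ar A B 1 ↔ M0 (fun n => (a n : ℂ)) = 0 ∧ M1 (fun n => (a n : ℂ)) ≠ 0) := by
  have := ell (sh_ne h)
  obtain ⟨S, -, -, k⟩ := at_fin (md_sh A B) nf.rn nf.fin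
  obtain ⟨M, m, -⟩ := rn_lh nf.rn
  obtain ⟨L, l⟩ := ex_ell nf.rn k m
  exact ⟨⟨fun ⟨_, x, y⟩ => (val nf.rn k x).1.1 y, fun z => ⟨L, l, (val nf.rn k l).1.2 z⟩⟩,
    fun ⟨_, x, y⟩ => (val nf.rn k x).2.1.1 y, fun z => ⟨L, l, (val nf.rn k l).2.1.2 z⟩⟩

theorem ar_of (h : El A B) (h' : El A' B') (nf : Nf A B N G a) (f : Ae A B A' B') (r1 : r ≤ 1)
    (ar : Ar A B r) : Ar A' B' r := by
  obtain rfl | rfl : r = 0 ∨ r = 1 := by omega
  exacts [(ar_iff h' (nf.of f)).1.2 ((ar_iff h nf).1.1 ar),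
    (ar_iff h' (nf.of f)).2.2 ((ar_iff h nf).2.1 ar)]

section

variable [Pp]

/-- **row MT** -/
theorem mt_of (md : MODN) (lgu : LGU) (lg : P014W.LG2) (kato : KATO') (kti : KTI) (b0 : BV 0)
    (b1 : BV 1) : MT := by
  intro A B A' B' h h' f r r1 ar
  obtain ⟨N, G, a, nf⟩ := md A B h
  obtain ⟨A₁, B₁, w, I, x, y, py⟩ := P014T.Pu.ex_parY nf.rn
  have n1 : Nf A₁ B₁ N G a := ⟨nf.rn, py.mat⟩
  have lp : ∀ p : ℕ, p.Prime → p ≠ pp → Lp py.disc N a p := fun p hp p1 =>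
    lp_of elc _ nf.rn hp p1 (P014W.cm_all lgu lg py.disc n1 hp)
  have bv : BV r := by
    obtain rfl | rfl : r = 0 ∨ r = 1 := by omega
    exacts [b0, b1]
  obtain ⟨S₁, p1, k1⟩ := kti A₁ B₁ A B py.disc h (n1.ae nf)
  obtain ⟨S₂, p2, k2⟩ := kti A₁ B₁ A' B' py.disc h' ((n1.ae nf).trans f)
  obtain ⟨S₃, p3, k3⟩ := bv A B h ar
  obtain ⟨S₄, p4, k4⟩ := bv A' B' h' (ar_of h h' nf f r1 ar)
  obtain ⟨S, α, sub, pS, c, e⟩ := kato N G a A₁ B₁ w I x y py nf.rn (S₁ ∪ S₂ ∪ (S₃ ∪ S₄))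
    ((p1.union p2).union (p3.union p4)) (fun p hp p1 _ => lp p hp p1)
    (lp 2 Nat.prime_two pp_ne_two.symm)
  simp only [Finset.union_subset_iff] at sub
  obtain ⟨-, b, D⟩ := k3 S α sub.2.1 pS (k1 S α sub.1.1 pS c)
  obtain ⟨-, b', D'⟩ := k4 S α sub.2.2 pS (k2 S α sub.1.2 pS c)
  exact ⟨_, (Padic.norm_le_one_iff_val_nonneg α).1 e, ⟨S, b, D⟩, S, b', D'⟩

variable {e : Crv} {δ : ℕ}

theorem nf_e (e : Crv) : Nf e.A e.B e.N e.G e.a := ⟨e.rn, e.par.mat⟩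

/-- the analytic ranks of the curve and of its twist -/
theorem sgn (ad : e.Adm δ) (r1 : r ≤ 1) (k1 : k ≤ 1) (ar : Ar e.A e.B r)
    (ak : Ar (e.A * (-δ) ^ 2) (e.B * (-δ) ^ 3) k) : r + k = 1 := by
  obtain ⟨sp, dd, jj⟩ := sp_adm ad
  obtain ⟨ε, nf⟩ := P004Z.Ar.nf_of_rn e.rn
  obtain ⟨G, n⟩ := nf_tw nf sp.odd sp.sq sp.cop
  have rn := P004T.rn_of_nf n
  have hD : El (e.A * (-δ) ^ 2) (e.B * (-δ) ^ 3) :=
    P014T.Top.El.tw e.par.disc (by have := ad.m8; omega)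
  have := ell (sh_ne hD)
  obtain ⟨M, t, -⟩ := at_tw e sp.odd (by rw [dd]) (by rw [dd]) (md_sh (e.A * (-δ) ^ 2) (e.B * (-δ) ^ 3))
  have i := ar_iff e.par.disc (nf_e e)
  have j := ar_iff hD ⟨rn, t.fin_al (md_sh _ _)⟩
  have s := P014T.An.sign e.rn.pos (rn_gd e.rn) e.rn.qe nf.al
  have u := P014T.An.sign rn.pos (rn_gd rn) rn.qe n.al
  rw [jj] at u
  obtain rfl | rfl : r = 0 ∨ r = 1 := by omega
  all_goals obtain rfl | rfl : k = 0 ∨ k = 1 := by omega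
  · have := u.1 (j.1.1 ak)
    rw [s.1 (i.1.1 ar)] at this
    norm_num at this
  · rfl
  · rfl
  · have := u.2 (j.2.1 ak).1 (j.2.1 ak).2
    rw [s.2 (i.2.1 ar).1 (i.2.1 ar).2] at this
    norm_num at this

theorem bd_tw' (e : Crv) {d : ℤ} {S : Finset ℕ} (l : e.S.toFinset ⊆ S) (pS : Pm S)
    (k : ∀ p : ℕ, p.Prime → (p : ℤ) ∣ d → p ∈ S) : Bd (sI (e.A * d ^ 2) (e.B * d ^ 3)) S := by
  refine ⟨pS, fun p hp c => by_contra fun n => ?_⟩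
  have q := Nat.prime_iff_prime_int.1 hp
  have m : p ∉ e.S := fun z => n (l (List.mem_toFinset.2 z))
  rw [show 2 * pp * (sI (e.A * d ^ 2) (e.B * d ^ 3)).Δ =
    -(pp * (d ^ 6 * (2 ^ 4 * (2 * (4 * e.A ^ 3 + 27 * e.B ^ 2))))) by
      simp only [sI, WeierstrassCurve.Δ, WeierstrassCurve.b₂, WeierstrassCurve.b₄,
        WeierstrassCurve.b₆, WeierstrassCurve.b₈]; ring, dvd_neg] at c
  rcases q.dvd_or_dvd c with c | c
  · exact e.ne_pp m ((Nat.prime_dvd_prime_iff_eq hp pp_prime).1 (by exact_mod_cast c))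
  rcases q.dvd_or_dvd c with c | c
  · exact n (k p hp (q.dvd_of_dvd_pow c))
  exact good e hp m ((q.dvd_or_dvd c).elim (fun c => (q.dvd_of_dvd_pow c).mul_right _) id)

/-- the consequences of the count -/
theorem half (cnt : CNT) (inv : INV) (park : PARK) (sur : SUR) (b : Fld e) (su : Sur e.par.disc)
    (rk : r + k = 1) {v v' : ℤ} (d : Di e.A e.B r v)
    (d' : Di (e.A * (-b.δ') ^ 2) (e.B * (-b.δ') ^ 3) k v') : (b.Lb → v + v' ≤ 0) ∧ Par b := by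
  have q := tq (neg_ne_zero.2 (Int.natCast_ne_zero.2 b.pos.ne')) e.A e.B
  have hD := q.hD e.par.disc
  have su' : Sur hD := by
    obtain ⟨τ, t, u⟩ := b.ex_ker
    exact (sur _ _ _ _ e.par.disc hD).2.2.2 _ ((sur _ _ _ _ _ _).2.1 _ q) su (.inr (.inr
      ⟨τ, (sd_or _ τ).resolve_left fun s => t ((b.kd.gk τ).2 (sd_eq_one.1 s)), u⟩))
  have b1 : Bd (sI e.A e.B) e.S.toFinset := by
    simpa using bd_tw' e (d := 1) subset_rfl (pr e) fun p hp c =>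
      (hp.one_lt.ne' (by exact_mod_cast Int.eq_one_of_dvd_one (by positivity) c)).elim
  have b0 := bd_tw' e (d := -b.δ') (S := e.S.toFinset ∪ b.δ'.primeFactors) Finset.subset_union_left
    (P014T.Top.Pm.union (pr e) fun p => Nat.prime_of_mem_primeFactors) fun p hp c =>
      Finset.mem_union_right _ (hp.mem_primeFactors (Int.natCast_dvd_natCast.1 (dvd_neg.1 c)) b.pos.ne')
  obtain ⟨S, u, d⟩ := d
  obtain ⟨S', u', d'⟩ := d'
  have d := (inv _ _ _ 1 0 0 0 _ _ _ _ (sh_ne e.par.disc) (md_sh _ _) u b1).1 d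
  have d' := (inv _ _ _ 1 0 0 0 _ _ _ _ (sh_ne hD) (md_sh _ _) u' b0).1 d'
  obtain ⟨rfl, rfl⟩ | ⟨rfl, rfl⟩ : r = 1 ∧ k = 0 ∨ r = 0 ∧ k = 1 := by omega
  · obtain ⟨c1, -, c2⟩ := cnt e b 1 _ _ _ _ _ v v' _ _
      ⟨.inl ⟨rfl, rfl, rfl, rfl⟩, by simp, by simp, rfl, rfl⟩ d d'
    refine ⟨c1, fun P _ p1 p0 => ?_⟩
    obtain ⟨x1, x2, x3, x4⟩ := c2 P P p1 p0
    obtain ⟨i, y⟩ := (park _ _ _ _ _ p1 b.cc su x3).2 x1
    obtain ⟨j, z⟩ := (park _ _ _ _ _ p0 b.cc su' x4).1 x2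
    exact ⟨i + j, by rw [y, z]; ring⟩
  · obtain ⟨c1, -, c2⟩ := cnt e b _ 1 _ _ _ _ v' v _ _
      ⟨.inr ⟨rfl, rfl, rfl, rfl⟩, rfl, rfl, by simp, by simp⟩ d' d
    refine ⟨fun l => add_comm v' v ▸ c1 l, fun P _ p1 p0 => ?_⟩
    obtain ⟨x1, x2, x3, x4⟩ := c2 P P p0 p1
    obtain ⟨i, y⟩ := (park _ _ _ _ _ p0 b.cc su' x3).2 x1
    obtain ⟨j, z⟩ := (park _ _ _ _ _ p1 b.cc su x4).1 x2
    exact ⟨i + j, by rw [y, z]; ring⟩

/-- admissible fields have positive density -/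
theorem posd (e : Crv) (T : ℕ) : P004T.PosD {δ | e.Adm δ ∧ T ≤ δ} := by
  have s0 : e.S.prod ≠ 0 := List.prod_ne_zero fun z => Nat.not_prime_zero (e.ov 0 z).1
  obtain ⟨q, hq⟩ : ∃ q, 8 * e.S.prod = q + 1 := Nat.exists_eq_succ_of_ne_zero (by positivity)
  obtain ⟨c, c0, f⟩ := P004T.posd_sqf (M := 8 * e.S.prod) (a := q) (by positivity) (by simp [hq]) T
  refine ⟨c, c0, f.mono fun X h => h.trans (Nat.cast_le.2 (Finset.card_le_card fun n m => ?_))⟩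
  simp only [Finset.mem_filter, Set.mem_setOf_eq] at m ⊢
  obtain ⟨m0, m1, m2, m3⟩ := m
  have d : 8 * e.S.prod ∣ n + 1 := (Nat.modEq_zero_iff_dvd.1 ((m2.add_right 1).trans
    (hq ▸ Nat.modEq_zero_iff_dvd.2 dvd_rfl)))
  have d8 := (dvd_mul_right _ _).trans d
  refine ⟨m0, ⟨m1, by omega, fun p k _ => ?_⟩, m3.le⟩
  rw [← jacobiSym.one_left p]
  refine jacobiSym.mod_left' (Int.modEq_iff_dvd.2 ?_)
  rw [sub_neg_eq_add, add_comm]
  exact_mod_cast ((List.dvd_prod k).mul_left 8).trans d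

/-- a field for two curves -/
theorem ex_fld (gld : GLD) (e e' : Crv) (T : ℕ) : ∃ δ, e.Adm δ ∧ T ≤ δ ∧
    (∃ k ≤ 1, Ar (e.A * (-δ) ^ 2) (e.B * (-δ) ^ 3) k) ∧
    ∃ k ≤ 1, Ar (e'.A * (-δ) ^ 2) (e'.B * (-δ) ^ 3) k := by
  obtain ⟨δ, ⟨ad, le⟩, n⟩ := P004T.ex_of_null (P004T.null_comp (P004T.null_or
    (gld _ _ e.par.disc) (gld _ _ e'.par.disc)) (m := -1) (by decide)) (posd e T)
  have m8 := ad.m8
  have sq : Squarefree (-δ : ℤ) := Int.squarefree_natAbs.1 (by simpa using ad.sq)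
  simp only [neg_one_mul, not_or, not_and, not_forall, not_not, exists_prop] at n
  exact ⟨δ, ad, le, n.1 (by omega) sq, n.2 (by omega) sq⟩

end

theorem ex_tau [Pp] (e e₀ : Crv) (eS : e₀.S = e.S) (eP : e₀.P = e.P) : ∃ e' : Crv, e'.N = e₀.N ∧
    e'.G = e₀.G ∧ e'.a = e₀.a ∧ e'.S = e.S ∧ e'.P = e.P ∧ e'.τ = e.τ :=
  ⟨{ e₀ with τ := e.τ, gn := fun p m k => eP ▸ e.gn p (eS ▸ m) k }, rfl, rfl, rfl, eS, eP, rfl⟩

/-- the pair of curves -/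
theorem ex_pr (md : MODN) (crv : CRV) (sur : SUR) (h : El A B) (su : Sur h) : ∃ e e' : Crv,
    Pr (-3) e e' ∧ Sur e.par.disc ∧ Sur e'.par.disc ∧ Ae A B e.A e.B ∧
      Ae (A * (-3) ^ 2) (B * (-3) ^ 3) e'.A e'.B := by
  have q := tq (show (-3 : ℤ) ≠ 0 by decide) A B
  have h3 := q.hD h
  obtain ⟨N, G, a, nf⟩ := md A B h
  obtain ⟨N', G', a', nf'⟩ := md _ _ h3
  obtain ⟨_, _, _, _, k⟩ := crv N G a N' G' a' nf.rn nf'.rn
  obtain ⟨e, e₀, ⟨rfl, rfl, rfl, -, -⟩, ⟨rfl, rfl, rfl, -, -⟩, eS, eP, hS⟩ :=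
    k (nf.fin.toFinset ∪ nf'.fin.toFinset ∪ (bd A B * 3).primeFactors) fun l m =>
      (Finset.mem_union.1 m).elim (fun m => (Finset.mem_union.1 m).elim
        (fun m => (nf.fin.mem_toFinset.1 m).1) fun m => (nf'.fin.mem_toFinset.1 m).1)
        Nat.prime_of_mem_primeFactors
  obtain ⟨e', x, y, z, eS, eP, eT⟩ := ex_tau e e₀ eS eP
  rw [← x, ← y, ← z] at nf'
  have f := nf.ae (nf_e e)
  have f' := nf'.ae (nf_e e')
  have c3 : Cj (-3) h h3 := (sur _ _ _ _ h h3).2.1 _ q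
  have s3 : Sur h3 := (sur _ _ _ _ h h3).2.2.2 _ c3 su (.inr (.inl ⟨rfl, rfl⟩))
  have se : Sur e.par.disc :=
    (sur _ _ _ _ h e.par.disc).2.2.2 _ ((sur _ _ _ _ h e.par.disc).1 f su) su (.inl rfl)
  have c0 : Cj 1 h3 e'.par.disc := (sur _ _ _ _ h3 e'.par.disc).1 f' s3
  have c1 : Cj 1 e.par.disc h := (sur _ _ _ _ e.par.disc h).1 f.symm se
  have c2 := (sur _ _ _ _ e.par.disc h).2.2.1 1 (-3) _ _ h3 one_ne_zero (by decide) c1 c3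
  rw [one_mul] at c2
  have c4 := (sur _ _ _ _ e.par.disc h3).2.2.1 (-3) 1 _ _ e'.par.disc (by decide) one_ne_zero c2 c0
  rw [mul_one] at c4
  refine ⟨e, e', ⟨eS, eP, eT, fun l hl m => ?_, c4⟩, se,
    (sur _ _ _ _ h3 e'.par.disc).2.2.2 _ c0 s3 (.inl rfl), f, f'⟩
  have n := mt (hS l) m
  simp only [Finset.mem_union, not_or, Set.Finite.mem_toFinset, Set.mem_setOf_eq, hl, true_and,
    not_not] at n
  rw [z, ← n.1.2, ← n.1.1, mul_comm J(-3 | l)]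
  exact al_twist h (d := -3) (by decide) l (hl.coprime_iff_not_dvd.2 fun c => n.2
    (hl.mem_primeFactors c (mul_ne_zero (bd_ne h) three_ne_zero)))

/-- **the first stage** -/
theorem kk1 (md : MODN) (mt : MT) (inv : INV) (gld : GLD) (sur : SUR) (crv : CRV) (fld : FLD)
    (fx : FX) (fu : FU) (cnt : CNT) (park : PARK) (anc : Tp.ANC3) : KK1 := by
  intro A B h su r r1 r' r1' ar ar'
  obtain ⟨e, e', pr, s, s', f, f'⟩ := ex_pr md crv sur h su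
  have h3 := P014T.Top.El.tw h (show (-3 : ℤ) ≠ 0 by decide)
  obtain ⟨T₁, k1⟩ := anc e e' pr s
  obtain ⟨T₂, k2⟩ := fld e e' pr.S pr.P
  obtain ⟨δ, ad, le, ⟨k, l, ak⟩, k', l', ak'⟩ := ex_fld gld e e' (T₁ + T₂)
  obtain ⟨b, b', rfl, sm⟩ := k2 δ (by omega) ad
  have d0 := neg_ne_zero.2 (Int.natCast_ne_zero.2 b.pos.ne')
  obtain ⟨v, v0, D, D1⟩ := mt _ _ _ _ h e.par.disc f r r1 ar
  obtain ⟨w, -, -, D2⟩ := mt _ _ _ _ h3 e'.par.disc f' r' r1' ar'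
  have t := P014T.Top.El.tw e.par.disc d0
  have t' := P014T.Top.El.tw e'.par.disc d0
  obtain ⟨v', v0', D3, -⟩ := mt _ _ _ _ t t (.refl _ _) k l ak
  obtain ⟨w', -, D4, -⟩ := mt _ _ _ _ t' t' (.refl _ _) k' l' ak'
  obtain ⟨c, p⟩ := half cnt inv park sur b s
    (sgn ad r1 l (ar_of h e.par.disc ((nf_e e).of f.symm) f r1 ar) ak) D1 D3
  rw [← sm.δ'] at ak' D4
  obtain ⟨-, p'⟩ := half cnt inv park sur b' s'
    (sgn b'.adm r1' l' (ar_of h3 e'.par.disc ((nf_e e').of f'.symm) f' r1' ar') ak') D2 D4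
  have := c (fx e b (F.anc_of fu (k1 b b' (by omega) sm p p')))
  rwa [show v = 0 by omega] at D

end Vale.Agent.P014Y.Top
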