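import Vale.Agent.P014Y.St2
import Vale.Agent.P014Y.Top

/-! # P014Y: the glue of the top level, any image -/

set_option autoImplicit false
set_option linter.all false

open NumberField Matrix UpperHalfPlane
open scoped Classical NumberTheorySymbols

noncomputable section

namespace Vale.Agent.P014Y.Top

open Vale.Agent.P014U Vale.Agent.P014U.Top
open Vale.Agent.P022 (IsConj)
open F (Crv Fld M2 sd hq CRV FLD FX FU)
open P014T.Lk P014T.Lc
open P014T.Wm (Fx)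
open P014T.Kx.Tw (Tq tq)
open P004M.TE (al)
open Kt (CNT Ord)
open Kt.An
open Kx (Pl sh)
open Tp (Ad2 ON2)

variable {A B : ℤ} {r k : ℕ}

section

variable [Pp]

/-- parity of the Selmer group, any image -/
def PAK : Prop := ∀ A B S P c (h : Pl A B S P), IsConj c → sh A B S c P ≠ 0 →
  (Finite (Fx A B ⊤) → ∃ k, sel A B S c P = pp ^ (2 * k + 1)) ∧
  (Rk1 A B → ∃ k, sel A B S c P = pp ^ (2 * k))

/-- the consequences of the count -/
theorem half' (cnt : CNT) (inv : INV) (park : PAK) {e : Crv} (b : Fld e)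
    (rk : r + k = 1) {v v' : ℤ} (d : Di e.A e.B r v)
    (d' : Di (e.A * (-b.δ') ^ 2) (e.B * (-b.δ') ^ 3) k v') : (b.Lb → v + v' ≤ 0) ∧ Par b := by
  have hD := P014T.Top.El.tw e.par.disc (neg_ne_zero.2 (Int.natCast_ne_zero.2 b.pos.ne'))
  have b1 : Bd (sI e.A e.B) e.S.toFinset := by
    simpa using bd_tw' e (d := 1) subset_rfl (pr e) fun p hp c =>
      (hp.one_lt.ne' (by exact_mod_cast Int.eq_one_of_dvd_one (by positivity) c)).elim
  have b0 := bd_tw' e (d := -b.δ') (S := e.S.toFinset ∪ b.δ'.primeFactors) Finset.subset_union_left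
    (P014T.Top.Pm.union (pr e) fun p => Nat.prime_of_mem_primeFactors) fun p hp c =>
      Finset.mem_union_right _ (hp.mem_primeFactors (Int.natCast_dvd_natCast.1 (dvd_neg.1 c)) b.pos.ne')
  obtain ⟨S, u, d⟩ := d
  obtain ⟨S', u', d'⟩ := d'
  have d := (inv _ _ _ 1 0 0 0 _ _ _ _ (sh_ne e.par.disc) (md_sh _ _) u b1).1 d
  have d' := (inv _ _ _ 1 0 0 0 _ _ _ _ (sh_ne hD) (md_sh _ _) u' b0).1 d'
  obtain ⟨rfl, rfl⟩ | ⟨rfl, rfl⟩ : r = 1 ∧ k = 0 ∨ r = 0 ∧ k = 1 := by omega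
  · obtain ⟨c1, -, c2⟩ := cnt e b 1 _ _ _ _ _ v v' _ _
      ⟨.inl ⟨rfl, rfl, rfl, rfl⟩, by simp, by simp, rfl, rfl⟩ d d'
    refine ⟨c1, fun P _ p1 p0 => ?_⟩
    obtain ⟨x1, x2, x3, x4⟩ := c2 P P p1 p0
    obtain ⟨i, y⟩ := (park _ _ _ _ _ p1 b.cc x3).2 x1
    obtain ⟨j, z⟩ := (park _ _ _ _ _ p0 b.cc x4).1 x2
    exact ⟨i + j, by rw [y, z]; ring⟩
  · obtain ⟨c1, -, c2⟩ := cnt e b _ 1 _ _ _ _ v' v _ _
      ⟨.inr ⟨rfl, rfl, rfl, rfl⟩, rfl, rfl, by simp, by simp⟩ d' d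
    refine ⟨fun l => add_comm v' v ▸ c1 l, fun P _ p1 p0 => ?_⟩
    obtain ⟨x1, x2, x3, x4⟩ := c2 P P p0 p1
    obtain ⟨i, y⟩ := (park _ _ _ _ _ p0 b.cc x3).2 x1
    obtain ⟨j, z⟩ := (park _ _ _ _ _ p1 b.cc x4).1 x2
    exact ⟨i + j, by rw [y, z]; ring⟩

/-- **one curve**: from an anchor for the fields with the parity input -/
theorem one_of (mt : MT) (inv : INV) (gld : GLD) (cnt : CNT) (park : PAK) (h : El A B) (r1 : r ≤ 1)
    (ar : Ar A B r) (e e' : Crv) (f : Ae A B e.A e.B) (T : ℕ)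
    (k : ∀ δ, T ≤ δ → e.Adm δ → (∃ k ≤ 1, Ar (e'.A * (-δ) ^ 2) (e'.B * (-δ) ^ 3) k) →
      ∃ b : Fld e, b.δ' = δ ∧ (Par b → b.Lb)) : Di A B r 0 := by
  obtain ⟨δ, ad, le, ⟨j, l, ak⟩, x⟩ := ex_fld gld e e' T
  obtain ⟨b, rfl, lb⟩ := k δ le ad x
  obtain ⟨v, v0, D, D1⟩ := mt _ _ _ _ h e.par.disc f r r1 ar
  have t := P014T.Top.El.tw e.par.disc (neg_ne_zero.2 (Int.natCast_ne_zero.2 b.pos.ne'))
  obtain ⟨v', v0', D3, -⟩ := mt _ _ _ _ t t (.refl _ _) j l ak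
  obtain ⟨c, p⟩ := half' cnt inv park b
    (sgn ad r1 l (ar_of h e.par.disc ((nf_e e).of f.symm) f r1 ar) ak) D1 D3
  have := c (lb p)
  rwa [show v = 0 by omega] at D

/-- the parity input from the analytic ranks -/
theorem par_of (mt : MT) (inv : INV) (cnt : CNT) (park : PAK) (h : El A B) (r1 : r ≤ 1)
    (ar : Ar A B r) {e : Crv} (f : Ae A B e.A e.B) (b : Fld e)
    (x : ∃ k ≤ 1, Ar (e.A * (-b.δ') ^ 2) (e.B * (-b.δ') ^ 3) k) : Par b := by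
  obtain ⟨j, l, ak⟩ := x
  obtain ⟨v, -, -, D1⟩ := mt _ _ _ _ h e.par.disc f r r1 ar
  have t := P014T.Top.El.tw e.par.disc (neg_ne_zero.2 (Int.natCast_ne_zero.2 b.pos.ne'))
  obtain ⟨v', -, D3, -⟩ := mt _ _ _ _ t t (.refl _ _) j l ak
  exact (half' cnt inv park b
    (sgn b.adm r1 l (ar_of h e.par.disc ((nf_e e).of f.symm) f r1 ar) ak) D1 D3).2

end

/-- the pair of curves -/
theorem ex_pr' (md : MODN) (crv : CRV) (sur : SUR) (irt : IRT) (h : El A B) (su : Irr h) :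
    ∃ e e' : Crv, Pr (-3) e e' ∧ Cj 1 h e.par.disc ∧ Irr e.par.disc ∧ Irr e'.par.disc ∧
      Ae A B e.A e.B ∧ Ae (A * (-3) ^ 2) (B * (-3) ^ 3) e'.A e'.B := by
  have q := tq (show (-3 : ℤ) ≠ 0 by decide) A B
  have h3 := q.hD h
  obtain ⟨N, G, a, nf⟩ := md A B h
  obtain ⟨N', G', a', nf'⟩ := md _ _ h3
  obtain ⟨_, _, _, _, k⟩ := crv N G a N' G' a' nf.rn nf'.rn
  obtain ⟨e, e₀, ⟨rfl, rfl, rfl, -, -⟩, ⟨rfl, rfl, rfl, -, -⟩, eS, eP, hS⟩ :=
    k (nf.fin.toFinset ∪ nf'.fin.toFinset ∪ (bd A B * 3).primeFactors) fun l m =>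
      (Finset.mem_union.1 m).elim (fun m => (Finset.mem_union.1 m).elim
        (fun m => (nf.fin.mem_toFinset.1 m).1) fun m => (nf'.fin.mem_toFinset.1 m).1)
        Nat.prime_of_mem_primeFactors
  obtain ⟨e', x, y, z, eS, eP, eT⟩ := ex_tau e e₀ eS eP
  rw [← x, ← y, ← z] at nf'
  have f := nf.ae (nf_e e)
  have f' := nf'.ae (nf_e e')
  have c3 : Cj (-3) h h3 := (sur _ _ _ _ h h3).2.1 _ q
  have s3 : Irr h3 := (irt _ _ _ _ h h3).2.2 _ c3 su
  have ce := (irt _ _ _ _ h e.par.disc).2.1 f su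
  have se : Irr e.par.disc := (irt _ _ _ _ h e.par.disc).2.2 _ ce su
  have c0 : Cj 1 h3 e'.par.disc := (irt _ _ _ _ h3 e'.par.disc).2.1 f' s3
  have c1 : Cj 1 e.par.disc h := (irt _ _ _ _ e.par.disc h).2.1 f.symm se
  have c2 := (sur _ _ _ _ e.par.disc h).2.2.1 1 (-3) _ _ h3 one_ne_zero (by decide) c1 c3
  rw [one_mul] at c2
  have c4 := (sur _ _ _ _ e.par.disc h3).2.2.1 (-3) 1 _ _ e'.par.disc (by decide) one_ne_zero c2 c0
  rw [mul_one] at c4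
  refine ⟨e, e', ⟨eS, eP, eT, fun l hl m => ?_, c4⟩, ce, se,
    (irt _ _ _ _ h3 e'.par.disc).2.2 _ c0 s3, f, f'⟩
  have n := mt (hS l) m
  simp only [Finset.mem_union, not_or, Set.Finite.mem_toFinset, Set.mem_setOf_eq, hl, true_and,
    not_not] at n
  rw [z, ← n.1.2, ← n.1.1, mul_comm J(-3 | l)]
  exact al_twist h (d := -3) (by decide) l (hl.coprime_iff_not_dvd.2 fun c => n.2
    (hl.mem_primeFactors c (mul_ne_zero (bd_ne h) three_ne_zero)))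

/-- the rows which every case uses -/
structure Cmn : Prop where
  md : MODN
  mt : MT
  inv : INV
  gld : GLD
  sur : SUR
  irt : IRT
  img : IMG
  bri : BRI
  crv : CRV
  fld : FLD
  fx : FX
  fu : FU
  cnt : CNT
  pak : PAK
  on : ON2

/-- the twist by `-3` has analytic rank at most one -/
def Pn (A B : ℤ) : Prop := ∃ r ≤ 1, Ar (A * (-3) ^ 2) (B * (-3) ^ 3) r

/-- **irreducible images** -/
theorem kkg (H : Cmn) (h : El A B) (ir : Irr h) (r1 : r ≤ 1) (ar : Ar A B r)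
    (ad : ∀ (e e' : Crv) (b : Fld e) (b' : Fld e'), Pr (-3) e e' → b.Same b' → Cj 1 h e.par.disc →
      Irr e.par.disc → Irr e'.par.disc → Pe b → (Pn A B → Pe b') → Ad2 b b') : Di A B r 0 := by
  obtain ⟨e, e', pr, c, s, s', f, f'⟩ := ex_pr' H.md H.crv H.sur H.irt h ir
  obtain ⟨T₁, k1⟩ := Tp.anc_of H.on pr (H.img e s).1
  obtain ⟨T₂, k2⟩ := H.fld e e' pr.S pr.P
  refine one_of H.mt H.inv H.gld H.cnt H.pak h r1 ar e e' f (T₁ + T₂) fun δ le a x => ?_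
  obtain ⟨b, b', rfl, sm⟩ := k2 δ (by omega) a
  refine ⟨b, rfl, fun p => H.fx e b (F.anc_of H.fu (k1 b b' (by omega) sm
    (ad e e' b b' pr sm c s s' (H.bri e b s p) fun ⟨j, l, y⟩ => H.bri e' b' s' ?_)))⟩
  rw [← sm.δ'] at x
  exact par_of H.mt H.inv H.cnt H.pak (P014T.Top.El.tw h (by decide)) l y f' b' x

/-- irreducible, with the partner -/
theorem kk_pn (H : Cmn) (s : ADS) (d : ADD) : KK fun A B h => Irr h ∧ Pn A B :=
  fun A B h ⟨ir, pn⟩ r r1 ar => kkg H h ir r1 ar fun e e' b b' pr sm _ i _ p p' =>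
    (em _).elim (fun u => s e e' b b' pr sm u p (p' pn)) fun u => d e e' b b' pr sm i u p (p' pn)

/-- onto, no partner -/
theorem kk_sur (H : Cmn) (hS : Mu.SUT) (s : ADS) (pa : PA1) : KK fun _ _ h => Sur h :=
  fun A B h su r r1 ar => kkg H h ((H.irt _ _ _ _ h h).1 su) r1 ar fun e e' b b' pr sm c _ _ p _ =>
    have u := (H.sur _ _ _ _ h e.par.disc).2.2.2 _ c su (.inl rfl)
    s e e' b b' pr sm u p (pa e' b' (hS e e' pr u).1)

/-- **irreducible** -/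
theorem kk_irr (H : Cmn) (s : ADS) (d : ADD) (pa : PA2) : KK fun _ _ h => Irr h :=
  fun A B h ir r r1 ar => kkg H h ir r1 ar fun e e' b b' pr sm _ i i' p _ =>
    (em _).elim (fun u => s e e' b b' pr sm u p (pa e' b' i')) fun u =>
      d e e' b b' pr sm i u p (pa e' b' i')

/-- **all curves** -/
theorem kk_all (i : KK fun _ _ h => Irr h) (k : KKR) : KK fun _ _ _ => True :=
  fun A B h _ => (em (Irr h)).elim (i A B h) (k A B h)

end Vale.Agent.P014Y.Top
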