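import Vale.Agent.P014Y.Fin
import Vale.Agent.P014Y.Top2
import Vale.Agent.P014X.Fin

/-! # P014Y: the texts of the statement -/

set_option autoImplicit false
set_option linter.all false

noncomputable section

namespace Vale.Agent.P014Y.Top

open Vale.Agent.P014 Vale.Agent.P014T Vale.Agent.P014U Vale.Agent.P014U.Top
open P014T.Sm (Md)
open P014X (HasCM)

/-- the text, with a class `C` of curves for which three does not divide the quotient -/
def BSDY (C : WeierstrassCurve ℚ → Prop) : Prop :=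
  ∀ (E : WeierstrassCurve ℚ) [E.IsElliptic], GlobalMinimal E → (∃! L, IsHasseWeil E L) ∧
  ∀ L, IsHasseWeil E L → ∀ r : ℕ, r ≤ 1 → analyticOrderAt L 1 = r →
    Module.finrank ℤ E.toAffine.Point = r ∧ Finite (Sha E) ∧
    (∃ P : Fin r → E.toAffine.Point, IsBasisModTorsion E P) ∧
    ∀ P : Fin r → E.toAffine.Point, IsBasisModTorsion E P → ∃ n : ℕ, Odd n ∧
      iteratedDeriv r L 1 / (r.factorial : ℂ) = (n : ℂ) * ((realPeriod E * regulator E P *
        (Nat.card (Sha E) : ℝ) * (tamagawaProduct E : ℝ) / (torsionOrder E : ℝ) ^ 2 : ℝ) : ℂ) ∧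
      (HasCM E ∨ (∃ k : ℕ, n * Nat.card (Sha E) = 2 ^ k) → n = 1) ∧ (C E → ¬ 3 ∣ n)

theorem bsdy (bs : P014X.Top.BSDM) (inv : INV) {C : WeierstrassCurve ℚ → Prop}
    {D : ∀ A B : ℤ, El A B → Prop} (kk : KK D) (c : ∀ (E : WeierstrassCurve ℚ) [E.IsElliptic]
      (A B : ℤ) u r s t (m : Md E A B u r s t), C E → D A B m.hD) : BSDY C := fun E _ hm => by
  refine ⟨(bs E hm).1, fun L h r r1 o => ?_⟩
  obtain ⟨k1, k2, k3, k4⟩ := (bs E hm).2 L h r r1 o
  refine ⟨k1, k2, k3, fun P b => ?_⟩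
  obtain ⟨n, d, e, w⟩ := k4 P b
  obtain ⟨A, B, u, v, s, t, m⟩ := Sm.ex_md E
  exact ⟨n, d, e, w, fun x => ndv inv hm (Lk.hw h) m r1 o
    (kk A B m.hD (c E A B u v s t m x) r r1 (ar_md m h o)) b k2 e⟩

/-- the twist by `-3` has analytic rank at most one -/
def Ptn (E : WeierstrassCurve ℚ) : Prop :=
  ∃ L', IsHasseWeil (twist E (-3)) L' ∧ analyticOrderAt L' 1 ≤ 1

theorem pn_of {E : WeierstrassCurve ℚ} [E.IsElliptic] {A B : ℤ} {u r s t : ℚ} (m : Md E A B u r s t)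
    (p : Ptn E) : Pn A B :=
  p.elim fun _ x => ar_tw m (d := -3) (by decide) (by exact_mod_cast x.1) x.2

/-- no rational isogeny of degree three, with the partner -/
theorem bsd_pn (bs : P014X.Top.BSDM) (inv : INV) (i : IR0) (kk : KK fun A B h => Irr h ∧ Pn A B) :
    BSDY fun E => Irr3 E ∧ Ptn E :=
  bsdy bs inv kk fun E _ A B u r s t m x => ⟨i E A B u r s t m x.1, pn_of m x.2⟩

/-- no rational isogeny of degree three -/
theorem bsd_irr (bs : P014X.Top.BSDM) (inv : INV) (i : IR0) (kk : KK fun _ _ h => Irr h) :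
    BSDY Irr3 := bsdy bs inv kk fun E _ A B u r s t m x => i E A B u r s t m x

/-- onto, with the partner -/
theorem bsd_one (bs : P014X.Top.BSDM) (inv : INV) (i : SU0) (kk : KK1) :
    BSDY fun E => Onto3 E ∧ Ptn E :=
  bsdy (D := fun A B h => Sur h ∧ Pn A B) bs inv
    (fun A B h ⟨s, j, l, a⟩ r r1 ar => kk A B h s r r1 j l ar a)
    fun E _ A B u r s t m x => ⟨i E A B u r s t m x.1, pn_of m x.2⟩

theorem one_of_pow {n m i j : ℕ} (o : Odd n) (d : ¬ 3 ∣ n) (e : n * m = 2 ^ i * 3 ^ j) : n = 1 :=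
  Nat.eq_one_iff_not_exists_prime_dvd.2 fun p a c =>
    ((Nat.Prime.dvd_mul a).1 (e ▸ c.mul_right m)).elim
      (fun z => o.not_two_dvd_nat ((Nat.prime_dvd_prime_iff_eq a Nat.prime_two).1
        (a.dvd_of_dvd_pow z) ▸ c))
      fun z => d ((Nat.prime_dvd_prime_iff_eq a Nat.prime_three).1 (a.dvd_of_dvd_pow z) ▸ c)

end Vale.Agent.P014Y.Top
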