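import Vale.Agent.P014Y.St
import Vale.Agent.P004T.Top
import Vale.Agent.Results.P004.EigenformTwists

/-! # P014Y: almost all twists have analytic rank at most one -/

set_option autoImplicit false
set_option linter.all false

open Filter Topology
open scoped Classical

noncomputable section

namespace Vale.Agent.P014Y.Top

open Vale.Agent.P014U Vale.Agent.P014U.Top
open Results.P004.EigenformTwists
open P004S (Null)

theorem three {α : Type} {F s t u : Finset α} (a : s ⊆ F) (b : t ⊆ F) (c : u ⊆ F) (d : Disjoint t u)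
    (e : Disjoint s t) (f : Disjoint s u) : (s.card : ℝ) + (t.card + u.card) ≤ F.card := by
  norm_cast
  rw [← Finset.card_union_of_disjoint d,
    ← Finset.card_union_of_disjoint (Finset.disjoint_union_right.2 ⟨e, f⟩)]
  exact Finset.card_le_card (Finset.union_subset a (Finset.union_subset b c))

theorem quo {n m F X : ℝ} (n0 : 0 ≤ n) (p : 0 < F) (x : 0 < X) (q : F ≤ 3 * X) {k : ℝ}
    (s : n + (m + k) ≤ F) : n / X ≤ 3 * (1 - (m / F + k / F)) := by
  rw [← add_div, one_sub_div p.ne', ← mul_div_assoc, div_le_div_iff₀ x p]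
  nlinarith

theorem null_of {r : ℤ → ℕ} (h : DensityForm r) : Null fun d => IsFundDisc d ∧ 1 < r d := by
  have k := (((h 0 zero_le_one).add (h 1 le_rfl)).const_sub 1).const_mul 3
  norm_num only at k
  refine squeeze_zero' (.of_forall fun X => by positivity)
    ((eventually_ge_atTop 5).mono fun X x => ?_) k
  have p : (0 : ℝ) < (Family X).card := Nat.cast_pos.2 (Finset.card_pos.2 ⟨5, Finset.mem_filter.2
    ⟨Finset.mem_Icc.2 ⟨by omega, by omega⟩, by decide, .inl ⟨by decide,
      (Int.prime_iff_natAbs_prime.2 (by norm_num)).squarefree⟩⟩⟩)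
  have q : ((Family X).card : ℝ) ≤ 3 * X := by
    have := Finset.card_filter_le (Finset.Icc (-(X : ℤ)) X) IsFundDisc
    rw [Int.card_Icc] at this
    exact_mod_cast (this.trans (by omega) : (Family X).card ≤ 3 * X)
  refine quo (Nat.cast_nonneg _) p (Nat.cast_pos.2 (by omega)) q (three (fun d m => ?_)
    (fun _ m => ?_) (fun _ m => ?_) ?_ ?_ ?_)
  iterate 3
    simp only [Finset.mem_filter, Family] at m ⊢
    tauto
  all_goals
    refine Finset.disjoint_left.2 fun _ a b => ?_
    simp only [Finset.mem_filter] at a b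
    omega

/-- **row GLD** -/
theorem gld (h : ∀ A B : ℤ, El A B → ∃ r, IsEllRank A B r ∧ DensityForm r) : GLD := fun A B e => by
  obtain ⟨r, k, f⟩ := h A B e
  refine P004T.null_mono (P004T.null_or P004T.null_one (null_of f)) fun d d0 ⟨a, b, c⟩ => ?_
  refine or_iff_not_imp_left.2 fun n => ⟨⟨n, .inl ⟨a, b⟩⟩, not_le.1 fun l => ?_⟩
  obtain ⟨L, x, -, y⟩ := k d ⟨n, .inl ⟨a, b⟩⟩
  have t : Results.P004.EigenformTwists.twist A B d = P014T.Lc.Wq (sI (A * d ^ 2) (B * d ^ 3)) := by
    ext <;> simp [Results.P004.EigenformTwists.twist, sI]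
  exact c _ l ⟨L, t ▸ x, y⟩

end Vale.Agent.P014Y.Top
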