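import Vale.Agent.P014Y.Pk.All
import Vale.Agent.P014Y.Top2

/-! # P014Y: parity of the Selmer group for any image -/

set_option autoImplicit false
set_option linter.all false

open scoped Classical

namespace Vale.Agent.P014Y.Pk

open Vale.Agent.P014U
open P014T.Wm (Fx)

theorem pak [Pp] : Top.PAK := fun A B S P c h hc s => ⟨fun f => (par h hc s (r := 0) (by
    rw [(AddSubgroup.eq_top_iff' _).2 fun x => tor_le (isOfFinAddOrder_of_finite x),
      AddSubgroup.index_top, pow_zero])).imp fun k e => by rw [e, zero_add, add_comm],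
  fun ⟨y, m, n, g⟩ => (par h hc s (r := 1) (by
    have i := (Fx A B ⊤).subtype_injective
    rw [pow_one]
    exact idx1 (y := ⟨y, m⟩) (mt i.isOfFinAddOrder_iff.2 n) fun x =>
      (g x x.2).imp fun _ a => i.isOfFinAddOrder_iff.1 a)).elim fun k e => ⟨k + 1, by rw [e]; ring⟩⟩

end Vale.Agent.P014Y.Pk
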