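import Vale.Agent.P014.Defs

/-! # P014Y: the words of the statement -/

namespace Vale.Agent.P014Y

open Vale.Agent.P014
open scoped Classical

/-- The Galois representation on the points of order three is onto: every automorphism of the group
`E[3]` is induced by an element of the absolute Galois group. -/
def Onto3 (E : WeierstrassCurve ℚ) : Prop :=
  ∀ φ : AddSubgroup.torsionBy (Pbar E) 3 ≃+ AddSubgroup.torsionBy (Pbar E) 3,
    ∃ σ : GQ, ∀ P, (φ P : Pbar E) = act E σ P

/-- The quadratic twist of `E` by `d`: the curve `y² = x³ - 27 c₄ d² x - 54 c₆ d³`. -/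
def twist (E : WeierstrassCurve ℚ) (d : ℚ) : WeierstrassCurve ℚ :=
  ⟨0, 0, 0, -27 * E.c₄ * d ^ 2, -54 * E.c₆ * d ^ 3⟩

end Vale.Agent.P014Y
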