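import Vale.Agent.P014U.Ig.Mat
import Vale.Agent.P014U.Kx.Tw
import Vale.Agent.P014T.Kx.Tw
import Vale.Agent.P014T.Ht.Sh
import Vale.Agent.P014Y.Wd
import Vale.Agent.P014Y.Base

/-! # P014Y: transport of the image of the representation modulo the prime (tools) -/

set_option autoImplicit false
set_option linter.all false

open Matrix
open scoped Classical

noncomputable section

namespace Vale.Agent.P014Y.Sr

open Vale.Agent.P014U
open Vale.Agent.P022 (Qb GQ)
open Vale.Agent.P004F (M2 sd hq)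
open P014T.Sm (Md)
open P014T.Kx.Tw (Tq tw ga_tw sd_or sd_sq sd_mul sd_eq_one)
open P004M.TE (Pt ga)
open P027M.K (TM)
open X4M.TE (bs)

theorem sd1 (g : GQ) : sd 1 g = 1 := sd_eq_one.2 (P004S.nu_one_left g)

section

variable [Pp]

/-- reduction modulo the prime -/
abbrev π : ℤ_[pp] →+* ZMod pp := PadicInt.toZMod

theorem tz (c : ℤ_[pp]) : π c = ((PadicInt.toZModPow 1 c).val : ZMod pp) := by
  have : c - ((PadicInt.toZModPow 1 c).val : ℤ_[pp]) ∈
      RingHom.ker (PadicInt.toZModPow (p := pp) 1) := by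
    simp [RingHom.mem_ker]
  rwa [PadicInt.ker_toZModPow, pow_one, ← PadicInt.maximalIdeal_eq_span_p, ← PadicInt.ker_toZMod,
    RingHom.mem_ker, map_sub, map_natCast, sub_eq_zero] at this

theorem π_zero {c : ℤ_[pp]} : π c = 0 ↔ (pp : ℤ_[pp]) ∣ c := by
  rw [← RingHom.mem_ker, PadicInt.ker_toZMod, PadicInt.maximalIdeal_eq_span_p,
    Ideal.mem_span_singleton]

theorem π_unit {c : ℤ_[pp]} : IsUnit c ↔ π c ≠ 0 := by
  rw [Ne, ← RingHom.mem_ker, PadicInt.ker_toZMod, IsLocalRing.mem_maximalIdeal, mem_nonunits_iff,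
    not_not]

theorem det_π (M : M2 ℤ_[pp]) : (M.map π).det = π M.det := (RingHom.map_det π M).symm

theorem zero_of {F : Type} [Field F] {M : M2 F} (h0 : M.det = 0)
    (h : ∀ N : M2 F, N.det ≠ 0 → ∃ N', M * N = N' * M) : M = 0 := by
  obtain ⟨v, v0, hv⟩ := Matrix.exists_mulVec_eq_zero_iff.2 h0
  have k : ∀ N : M2 F, N.det ≠ 0 → ∀ i, (M *ᵥ (N *ᵥ v)) i = 0 := fun N hN i => by
    obtain ⟨N', e⟩ := h N hN
    rw [mulVec_mulVec, e, ← mulVec_mulVec, hv, mulVec_zero, Pi.zero_apply]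
  have k1 := k !![1, 0; 0, 1] (by simp)
  have k2 := k !![1, 1; 0, 1] (by simp)
  have k3 := k !![1, 0; 1, 1] (by simp)
  have k4 := k !![0, 1; 1, 0] (by simp)
  have k5 := k !![0, 1; 1, 1] (by simp)
  have k6 := k !![1, 1; 1, 0] (by simp)
  simp only [mulVec, dotProduct, Fin.sum_univ_two, of_apply, cons_val', cons_val_zero,
    cons_val_one, cons_val_fin_one, one_mul, zero_mul, add_zero, zero_add] at k1 k2 k3 k4 k5 k6
  obtain ⟨j, hj⟩ := Function.ne_iff.1 v0
  ext i l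
  refine mul_right_cancel₀ hj ?_
  rw [Matrix.zero_apply, zero_mul]
  fin_cases j <;> fin_cases l
  · simpa using (by linear_combination k6 i - k4 i : M i 0 * v 0 = 0)
  · simpa using (by linear_combination k3 i - k1 i : M i 1 * v 0 = 0)
  · simpa using (by linear_combination k2 i - k1 i : M i 0 * v 1 = 0)
  · simpa using (by linear_combination k5 i - k4 i : M i 1 * v 1 = 0)

theorem ex_unit {G : Type} {r r' : G → M2 ℤ_[pp]}
    (s : ∀ N : M2 (ZMod pp), N.det ≠ 0 → ∃ g, (r g).map π = N) :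
    ∀ (n : ℕ) (M : M2 ℤ_[pp]), ¬ (pp : ℤ_[pp]) ^ n ∣ M.det → (∀ g, r' g * M = M * r g) →
      ∃ M : M2 ℤ_[pp], IsUnit M.det ∧ ∀ g, r' g * M = M * r g := by
  intro n
  induction n with
  | zero => exact fun M h _ => (h (by simp)).elim
  | succ n ih =>
    intro M h e
    by_cases u : IsUnit M.det
    · exact ⟨M, u, e⟩
    have z : M.map π = 0 := zero_of (by rw [det_π]; exact not_not.1 (mt π_unit.2 u)) fun N hN => by
      obtain ⟨g, rfl⟩ := s N hN
      exact ⟨(r' g).map π, by rw [← Matrix.map_mul, ← Matrix.map_mul, e]⟩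
    choose M₁ hM using fun i j => π_zero.1 (congrFun (congrFun z i) j)
    have e1 : M = (pp : ℤ_[pp]) • Matrix.of M₁ := by
      ext i j
      exact hM i j
    refine ih (Matrix.of M₁) (fun k => h ?_) fun g => ?_
    · rw [e1, det_smul, Fintype.card_fin, pow_succ', pow_two, mul_assoc]
      exact mul_dvd_mul_left _ (k.mul_left _)
    · have := e g
      rw [e1, mul_smul_comm, smul_mul_assoc] at this
      exact smul_right_injective _ (Nat.cast_ne_zero.2 pp_ne) this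

theorem ex_pow {c : ℤ_[pp]} (h : c ≠ 0) : ∃ n, ¬ (pp : ℤ_[pp]) ^ n ∣ c :=
  ⟨c.valuation + 1, fun k => by
    have := (PadicInt.mem_span_pow_iff_le_valuation c h _).1 (Ideal.mem_span_singleton.2 k)
    omega⟩

variable {A B A' B' : ℤ} (hD : 4 * (A : ℚ) ^ 3 + 27 * (B : ℚ) ^ 2 ≠ 0)
  (hD' : 4 * (A' : ℚ) ^ 3 + 27 * (B' : ℚ) ^ 2 ≠ 0)

theorem tw_mat {d : ℤ} (t : Tq d A B A' B') : ∃ M : M2 ℤ_[pp], IsUnit M.det ∧
    ∀ g, X4M.TE.mt hD' g * M = sd d g • (M * X4M.TE.mt hD g) := by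
  refine ⟨Ig.mx hD' hD (tw t).toAddMonoidHom, Matrix.isUnit_det_of_right_inverse
    (B := Ig.mx hD hD' (tw t).symm.toAddMonoidHom) ?_, fun g => ?_⟩
  · refine (LinearMap.toMatrix_comp _ _ _ _ _).symm.trans
      (Eq.trans (congrArg _ ?_) (LinearMap.toMatrix_id (bs hD')))
    exact LinearMap.ext fun x => TM.ext fun r => (tw t).apply_symm_apply _
  · refine (LinearMap.toMatrix_comp _ _ _ _ _).symm.trans (Eq.trans (congrArg _ ?_)
      ((map_zsmul _ _ _).trans (congrArg _ (LinearMap.toMatrix_comp _ _ _ _ _))))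
    exact LinearMap.ext fun x => TM.ext fun r => (ga_tw t g _).trans
      (map_zsmul (TM.cp r : TM pp (Pt A' B') →+ Pt A' B') (sd d g) (TM.map pp (tw t).toAddMonoidHom
        (X4M.TE.rho (A : ℚ) (B : ℚ) g x))).symm

/-- the determinant modulo three -/
theorem det3 (h3 : pp = 3) (g : GQ) : π (X4M.TE.mt hD g).det = (sd (-3) g : ℤ) := by
  haveI : ∀ i, HasEnoughRootsOfUnity Qb (pp ^ i) := fun i => by
    have : NeZero ((pp ^ i : ℕ) : Qb) := ⟨by exact_mod_cast (NeZero.ne (pp ^ i))⟩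
    infer_instance
  obtain ⟨ζ, hζ⟩ := HasEnoughRootsOfUnity.exists_primitiveRoot Qb (pp ^ 1)
  have s := cyclotomicCharacter.spec pp (n := 1) g.toRingEquiv _ hζ.pow_eq_one
  rw [X4M.TE.det_cyc, tz]
  have lt := ZMod.val_lt (PadicInt.toZModPow 1 (cyclotomicCharacter Qb pp g.toRingEquiv).val)
  generalize (PadicInt.toZModPow 1 (cyclotomicCharacter Qb pp g.toRingEquiv).val).val = k at s lt
  rw [pow_one, h3] at hζ lt
  have z1 : ζ ≠ 1 := hζ.ne_one (by norm_num)
  have z3 := hζ.pow_eq_one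
  have z2 : ζ ^ 2 + ζ + 1 = 0 := mul_left_cancel₀ (sub_ne_zero.2 z1) (by linear_combination z3)
  have w : (ζ - ζ ^ 2) ^ 2 = ((-3 : ℤ) : Qb) := by
    push_cast
    linear_combination z2 + (ζ - 2) * z3
  have s' : g ζ = ζ ^ k := s
  have e3 : (3 : ZMod pp) = 0 := by simpa [h3] using ZMod.natCast_self pp
  interval_cases k
  · exact (z1 (g.injective (by rw [s', map_one, pow_zero]))).elim
  · rw [sd_eq_one.2 ((P004S.nu_eq_zero w).2 (by rw [map_sub, map_pow, s', pow_one]))]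
    simp
  · rw [(sd_or (-3) g).resolve_left fun e => ?_]
    · push_cast
      linear_combination e3
    · have := (P004S.nu_eq_zero w).1 (sd_eq_one.1 e)
      rw [map_sub, map_pow, s'] at this
      have w0 : ζ - ζ ^ 2 = 0 := by
        have : (2 : Qb) * (ζ - ζ ^ 2) = 0 := by linear_combination -this - ζ * z3
        exact (mul_eq_zero.1 this).resolve_left two_ne_zero
      rw [w0] at w
      norm_num at w

theorem sur_of {G : Type} {r r' : G → M2 ℤ_[pp]} {s : G → ℤ} {M : M2 ℤ_[pp]} (u : IsUnit M.det)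
    (e : ∀ g, r' g * M = s g • (M * r g))
    (h : ∀ N : M2 (ZMod pp), N.det ≠ 0 → ∃ g, s g • (r g).map π = N) (N : M2 (ZMod pp))
    (hN : N.det ≠ 0) : ∃ g, (r' g).map π = N := by
  have u' : IsUnit (M.map π).det := by rw [det_π]; exact u.map π
  obtain ⟨g, hg⟩ := h ((M.map π)⁻¹ * N * M.map π) (by
    rw [det_mul, det_mul]
    exact mul_ne_zero (mul_ne_zero (isUnit_nonsing_inv_det _ u').ne_zero hN) u'.ne_zero)
  refine ⟨g, ((isUnit_iff_isUnit_det _).2 u').mul_right_cancel ?_⟩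
  have := congrArg (RingHom.mapMatrix (m := Fin 2) π) (e g)
  rw [map_zsmul, map_mul, map_mul] at this
  refine this.trans ?_
  rw [← mul_smul_comm]
  refine (congrArg _ hg).trans ?_
  rw [Matrix.mul_assoc]
  exact mul_nonsing_inv_cancel_left _ _ u'

end

theorem su0 (E : WeierstrassCurve ℚ) {A B : ℤ} {u r s t : ℚ} (m : Md E A B u r s t)
    (hD : 4 * (A : ℚ) ^ 3 + 27 * (B : ℚ) ^ 2 ≠ 0) (o : Onto3 E) (N : M2 (ZMod pp))
    (hN : N.det ≠ 0) : ∃ g, (X4M.TE.mt hD g).map π = N := by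
  let M : M2 ℤ_[pp] := N.map fun x => (x.val : ℤ_[pp])
  have e : M.map π = N := by
    ext i j
    simp [M]
  have u1 : IsUnit M.det := π_unit.2 (by rw [← det_π, e]; exact hN)
  have u2 : IsUnit (M.map (Kx.Tw.rz 1)).det := by
    rw [← RingHom.mapMatrix_apply, ← RingHom.map_det]
    exact u1.map _
  let i := P014T.Sm.iso m Qb
  have mem : ∀ P, P ∈ AddSubgroup.torsionBy (P014.Pbar E) 3 ↔ pp ^ 1 • i P = 0 := fun P => by
    rw [← map_nsmul, i.map_eq_zero_iff]
    exact AddSubgroup.torsionBy.nsmul_iff (n := 3)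
  let ψ₀ : (Fin 2 → ZMod (pp ^ 1)) →+ AddSubgroup.torsionBy (P014.Pbar E) 3 :=
    (i.symm.toAddMonoidHom.comp (Kx.Tw.co hD 1)).codRestrict _ fun v => (mem _).2 (by
      simpa using Kx.Tw.co_tors hD 1 v)
  have v0 : ∀ v, i (ψ₀ v : P014.Pbar E) = Kx.Tw.co hD 1 v := fun v => i.apply_symm_apply _
  let ψ := AddEquiv.ofBijective ψ₀ ⟨fun v w k => Kx.Tw.co_inj hD 1 (by rw [← v0, ← v0, k]),
    fun P => by
      obtain ⟨v, hv⟩ := Kx.Tw.co_ex hD 1 ((mem _).1 P.2)
      exact ⟨v, Subtype.ext (i.injective (by rw [v0, hv]))⟩⟩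
  let L := (Matrix.toLinearEquiv' _ (Matrix.invertibleOfIsUnitDet _ u2)).toAddEquiv
  obtain ⟨g, hg⟩ := o (ψ.symm.trans (L.trans ψ))
  have k : ∀ v, M.map (Kx.Tw.rz 1) *ᵥ v = (X4M.TE.mt hD g).map (Kx.Tw.rz 1) *ᵥ v := fun v => by
    have := congrArg i (hg (ψ v))
    rw [P014T.Sm.iso_act, AddEquiv.trans_apply, AddEquiv.symm_apply_apply] at this
    refine Kx.Tw.co_inj hD 1 ?_
    rw [Kx.Tw.co_ga, ← v0, ← v0]
    exact this
  refine ⟨g, ?_⟩
  rw [← e]
  ext a b
  have := congrFun (k (Pi.single b 1)) a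
  rw [mulVec_single_one, mulVec_single_one] at this
  rw [map_apply, map_apply, tz, tz]
  exact congrArg (fun x : ZMod (pp ^ 1) => (x.val : ZMod pp)) this.symm

end Vale.Agent.P014Y.Sr
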