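import Vale.Agent.P014Y.St
import Vale.Agent.P014Y.Sur0

/-! # P014Y: rows SUR and SU0 -/

set_option autoImplicit false
set_option linter.all false

open Matrix
open scoped Classical

noncomputable section

namespace Vale.Agent.P014Y.Top

open Vale.Agent.P014U
open F (sd hq)
open P014T.Kx.Tw (sd_or sd_mul sd_mul_left)
open Sr

/-- **row SUR** -/
theorem sur [Pp] : SUR := by
  intro A B A' B' h h'
  refine ⟨fun f s => ?_, fun d t => tw_mat (hq h) (hq h') t, ?_, ?_⟩
  · obtain ⟨M, m0, e⟩ := Ig.isog_mat (hq h') (hq h) (f.subset fun p k => ⟨k.1, k.2.symm⟩)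
    obtain ⟨n, hn⟩ := ex_pow m0
    obtain ⟨M, u, e⟩ := ex_unit s n M hn e
    exact ⟨M, u, fun g => by rw [sd1, one_smul, e]⟩
  · rintro d d' A'' B'' h'' d0 d0' ⟨M, u, e⟩ ⟨M', u', e'⟩
    refine ⟨M' * M, by rw [det_mul]; exact u'.mul u, fun g => ?_⟩
    rw [← Matrix.mul_assoc, e', smul_mul_assoc, Matrix.mul_assoc, e, mul_smul_comm, smul_smul,
      sd_mul_left d0 d0', mul_comm (sd d g), Matrix.mul_assoc]
  · rintro d ⟨M, u, e⟩ s k
    refine sur_of u e fun N hN => ?_
    rcases k with rfl | ⟨h3, rfl⟩ | ⟨g₀, k1, k2⟩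
    · obtain ⟨g, hg⟩ := s N hN
      exact ⟨g, by rw [sd1, one_smul, hg]⟩
    · have q : N.det * N.det = 1 := by
        have := ZMod.pow_card_sub_one_eq_one hN
        rwa [show pp - 1 = 2 by omega, pow_two] at this
      obtain ⟨g, hg⟩ := s (N.det • N) (by
        rw [det_smul]
        exact mul_ne_zero (pow_ne_zero _ hN) hN)
      have := det3 (hq h) h3 g
      rw [← det_π, hg, det_smul, Fintype.card_fin, pow_two, q, one_mul] at this
      exact ⟨g, by rw [hg, ← Int.cast_smul_eq_zsmul (ZMod pp), ← this, smul_smul, q, one_smul]⟩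
    · obtain ⟨g, hg⟩ := s N hN
      rcases sd_or d g with a | a
      · exact ⟨g, by rw [a, one_smul, hg]⟩
      · exact ⟨g * g₀, by rw [sd_mul, a, k1, map_mul, k2, mul_one, hg]; simp⟩

/-- **row SU0** -/
theorem su0 : SU0 := fun E _ _ _ _ _ _ _ m o => Sr.su0 E m (hq m.hD) o

end Vale.Agent.P014Y.Top
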