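import Vale.Agent.P014Y.Top2

/-! # P014Y: the glue of the top level, reducible images -/

set_option autoImplicit false
set_option linter.all false

noncomputable section

namespace Vale.Agent.P014Y.Top

open Vale.Agent.P014U Vale.Agent.P014U.Top
open F (Crv Fld)

/-- the anchor for the curves with the property `C` -/
def AnC (C : Crv → Prop) : Prop :=
  ∀ e : Crv, C e → ∃ T, ∀ b : Fld e, T ≤ b.δ' → Par b → b.Anc

/-- **the anchor for reducible images** -/
def RAN : Prop := AnC fun e => ¬ Irr e.par.disc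

theorem AnC.or {C D : Crv → Prop} (h : AnC C) (k : AnC D) : AnC fun e => C e ∨ D e :=
  fun e c => c.elim (h e) (k e)

theorem AnC.mono {C D : Crv → Prop} (h : AnC C) (k : ∀ e, D e → C e) : AnC D :=
  fun e c => h e (k e c)

/-- from the anchor for one curve -/
theorem kk_an (H : Cmn) {C : Crv → Prop} {D : ∀ A B : ℤ, El A B → Prop} (an : AnC C)
    (tr : ∀ A B h (e : Crv), Ae A B e.A e.B → D A B h → C e) : KK D := fun A B h d r r1 ar => by
  obtain ⟨N, G, a, nf⟩ := H.md A B h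
  obtain ⟨_, _, _, _, k⟩ := H.crv N G a N G a nf.rn nf.rn
  obtain ⟨e, -, ⟨rfl, rfl, rfl, -, -⟩, -⟩ := k ∅ fun _ m => (Finset.notMem_empty _ m).elim
  have f := nf.ae (nf_e e)
  obtain ⟨T₁, k1⟩ := an e (tr A B h e f d)
  obtain ⟨T₂, k2⟩ := H.fld e e rfl rfl
  refine one_of H.mt H.inv H.gld H.cnt H.pak h r1 ar e e f (T₁ + T₂) fun δ le a _ => ?_
  obtain ⟨b, -, rfl, -⟩ := k2 δ (by omega) a
  exact ⟨b, rfl, fun p => H.fx e b (k1 b (by omega) p)⟩

/-- **the reducible case** -/
theorem kkr (H : Cmn) (an : RAN) : KKR := kk_an H an fun A B h e f n i =>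
  n ((H.irt _ _ _ _ e.par.disc h).2.2 _ ((H.irt _ _ _ _ e.par.disc h).2.1 f.symm i) i)

end Vale.Agent.P014Y.Top
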