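import Vale.Agent.P014X.All
import Vale.Agent.Results.P004.AFull
import Vale.Agent.P014Y.F.All
import Vale.Agent.P014Y.F.Cr.Crv
import Vale.Agent.P014Y.F.Fd.Fld
import Vale.Agent.P014Y.Kt.All
import Vale.Agent.P014Y.Mu.All
import Vale.Agent.P014Y.Md.All
import Vale.Agent.P014Y.Gld
import Vale.Agent.P014Y.Pak
import Vale.Agent.P014Y.Sur
import Vale.Agent.P014Y.Sui
import Vale.Agent.P014Y.Top3
import Vale.Agent.P014Y.Fin2

/-! # P014Y: the wiring of the rows which every case uses -/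

set_option autoImplicit false

namespace Vale.Agent.P014Y.Top

open Vale.Agent.P014U Vale.Agent.P014U.Top
open P014T.Top (md_all lgu_all)

theorem mt0 [Pp] : MT :=
  mt_of md_all lgu_all (P014W.lg2_of (P014W.gb_of P014W.rect P014W.hpa) P014W.key P014W.nvx)
    Ct.kato_all' La.kti (bv0 md_all) (Pl.bv1_all md_all P014T.Nv.nvd_all)

theorem gld0 : GLD := gld fun A B h => (Results.P004.AFull.result A B h).imp fun _ k => ⟨k.1, k.2.1⟩

theorem lgc0 [Pp] : F.LGC := F.Sp.lgc (P014W.ent_of P014W.key)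

theorem fld0 [Pp] : F.FLD := F.fld P004K.y_heeg P004F.z_qexp

theorem bri0 [Pp] : BRI := fun e b _ h pl hp => Mu.brgA Mu.kml Mu.rse e b pl hp h

theorem ads0 : ADS := fun _ _ b b' pr sm su p p' => Mu.ads0 b b' pr sm su p p'

theorem cmn (on : Tp.ON2) : Cmn :=
  ⟨md_all, mt0, Tv.inv, gld0, sur, irt, img, bri0, F.crv, fld0, F.fx_of rfl lgc0, F.fu_of rfl lgc0,
    Kt.cnt0, Pk.pak, on⟩

/-- no rational isogeny of degree three, with the partner -/
theorem pn_on (on : Tp.ON2) : BSDY fun E => Irr3 E ∧ Ptn E :=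
  bsd_pn P014X.Top.bsdm_all Tv.inv ir0 (kk_pn (cmn on) ads0 Md.add0)

/-- no rational isogeny of degree three -/
theorem irr_on (on : Tp.ON2) (pa : PA2) : BSDY Irr3 :=
  bsd_irr P014X.Top.bsdm_all Tv.inv ir0 (kk_irr (cmn on) ads0 Md.add0 pa)

end Vale.Agent.P014Y.Top
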