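import Vale.Agent.P014Y.St
import Vale.Agent.P014U.Fin
import Vale.Agent.P014T.Lk.Ell

/-! # P014Y: from the discrepancy to the statement -/

set_option autoImplicit false
set_option linter.all false

open scoped Classical

noncomputable section

namespace Vale.Agent.P014Y.Top

open Vale.Agent.P014 Vale.Agent.P014U Vale.Agent.P014U.Top
open Vale.Agent.P014T (IsBasisModTorsion regulator)
open P004N (IsEll cE)
open P014T.Lc (Wq tm np)
open P014T.Sm (Md)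

variable {W : WeierstrassCurve ℤ} {A B : ℤ} {u r s t : ℚ}

section

variable [Pp]

theorem low (inv : INV) (hΔ : W.Δ ≠ 0) (hm : GlobalMinimal (Wq W)) {L : ℂ → ℂ} (hE : IsEll (Wq W) L)
    (h : Md (Wq W) A B u r s t) {k : ℕ} (hk : k ≤ 1) {v : ℤ} (D : Di A B k v)
    {P : Fin k → (Wq W).toAffine.Point} (hP : IsBasisModTorsion (Wq W) P) :
    ∃ ρ : ℚ, padicValRat pp ρ = v ∧
      iteratedDeriv k L 1 / (k.factorial : ℂ) = (ρ : ℂ) * ((realPeriod (Wq W) * regulator (Wq W) P *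
        (Nat.card (shaPrimary (Wq W) pp) : ℝ) * (tamagawaProduct (Wq W) : ℝ) /
          (torsionOrder (Wq W) : ℝ) ^ 2 : ℝ) : ℂ) := by
  have := P014T.Top.Sa.ell hΔ
  obtain ⟨S', b', d⟩ := D
  have b := ex_bd hΔ
  generalize (2 * pp * W.Δ).natAbs.primeFactors = S at b
  obtain ⟨M, Q, ρ, hM, o, hQ, fi, r0, v, e⟩ := (inv W A B u r s t S S' k _ hΔ h b b').2 d
  refine ⟨ρ, v, ?_⟩
  obtain ⟨-, o', e'⟩ := P014T.Lk.dep (a := fun n => (Wq W).LFunction n)
    ⟨Finset.prod_ne_zero_iff.2 fun p a => (b.1 p a).ne_zero, fun _ _ => rfl⟩ hE hM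
  have pos : (∏ p ∈ S, (np W p / p : ℝ)) ≠ 0 := Finset.prod_ne_zero_iff.2 fun p a =>
    div_ne_zero (Nat.cast_ne_zero.2 (P014T.Lc.np_pos W (b.1 p a)).ne')
      (Nat.cast_ne_zero.2 (b.1 p a).ne_zero)
  rw [e' k (o' ▸ o.ge), Nat.primeFactors_prod b.1,
    Finset.prod_congr rfl fun p a => P014T.Lk.P1_np W hΔ hm (b.1 p a)] at e
  simp only [mul_div_assoc, Finset.prod_mul_distrib] at e
  rw [P014T.Top.Sa.reg hk hP hQ, P014T.Lc.tam_prod W S fun p a c => b.2 p a (c.mul_left _)]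
  refine mul_left_cancel₀ (Complex.ofReal_ne_zero.2 pos) (e.trans ?_)
  push_cast
  ring

/-- the prime does not divide the quotient -/
theorem ndv (inv : INV) {E : WeierstrassCurve ℚ} [E.IsElliptic]
    (hm : GlobalMinimal E) {L : ℂ → ℂ} (hE : IsEll E L) (h : Md E A B u r s t) {k n : ℕ}
    (hk : k ≤ 1) (o : analyticOrderAt L 1 = k) (D : Di A B k 0) {P : Fin k → E.toAffine.Point}
    (hP : IsBasisModTorsion E P) (f : Finite (Sha E))
    (e : iteratedDeriv k L 1 / (k.factorial : ℂ) = (n : ℂ) * ((realPeriod E * regulator E P *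
      (Nat.card (Sha E) : ℝ) * (tamagawaProduct E : ℝ) / (torsionOrder E : ℝ) ^ 2 : ℝ) : ℂ)) :
    ¬ pp ∣ n := by
  obtain ⟨W, rfl⟩ := P014T.Lc.ex_int hm.1
  have hΔ : W.Δ ≠ 0 := fun e => (Wq W).isUnit_Δ.ne_zero (by rw [WeierstrassCurve.map_Δ, e, map_zero])
  have hX := ((analyticOrderAt_eq_nat_iff_iteratedDeriv_eq_zero (hE.1 1 (by simp))).1 o).2
  obtain ⟨ρ, v, e'⟩ := low inv hΔ hm hE h hk D hP
  obtain ⟨m, d, c⟩ : ∃ m : ℕ, ¬ pp ∣ m ∧ Nat.card (Sha (Wq W)) = m * Nat.card (shaPrimary (Wq W) pp) :=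
    P014T.Top.card_pr (Sha (Wq W)) pp
  have s0 : m * Nat.card (shaPrimary (Wq W) pp) ≠ 0 := c ▸ Nat.card_pos.ne'
  have n0 : n ≠ 0 := by
    rintro rfl
    exact div_ne_zero hX (Nat.cast_ne_zero.2 k.factorial_ne_zero) (by simpa using e)
  have q := Tq.quo (ρ := n) hX (by rwa [Rat.cast_natCast]) e'
  rw [c, Nat.cast_mul, ← mul_assoc] at q
  rw [← mul_right_cancel₀ (Nat.cast_ne_zero.2 (right_ne_zero_of_mul s0)) q, ← Nat.cast_mul,
    padicValRat.of_nat] at v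
  intro z
  have := one_le_padicValNat_of_dvd (mul_ne_zero n0 (left_ne_zero_of_mul s0)) (z.mul_right m)
  omega

end

variable {E : WeierstrassCurve ℚ} [E.IsElliptic]

theorem ar_md (m : Md E A B u r s t) {L : ℂ → ℂ} (h : IsHasseWeil E L) {k : ℕ}
    (o : analyticOrderAt L 1 = k) : Ar A B k :=
  ⟨L, (P014T.Top.Sa.isEll m).1 (P014T.Lk.hw h), o⟩

theorem md_tw (m : Md E A B u r s t) (d : ℤ) :
    Md (twist E d) (A * d ^ 2 : ℤ) (B * d ^ 3 : ℤ) (u / 6) 0 0 0 := by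
  obtain ⟨-, -, -, e2, e3⟩ := P014T.Sm.Md.eq m
  refine ⟨div_ne_zero m.ne (by norm_num), ?_, ?_, ?_, ?_, ?_⟩ <;> simp only [twist] <;> push_cast <;>
    first | ring1 | (rw [e2]; ring1) | (rw [e3]; ring1)

/-- the analytic rank of a twist -/
theorem ar_tw (m : Md E A B u r s t) {d : ℤ} (d0 : d ≠ 0) {L : ℂ → ℂ}
    (h : IsHasseWeil (twist E d) L) (o : analyticOrderAt L 1 ≤ 1) :
    ∃ k ≤ 1, Ar (A * d ^ 2) (B * d ^ 3) k := by
  have m' := md_tw m d
  have : (twist E d).IsElliptic := ⟨IsUnit.mk0 _ fun z => by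
    have k := P014T.Sm.Md.disc m'
    rw [z, mul_zero] at k
    exact P014T.Top.El.tw m.hD d0 (by
      have := (mul_eq_zero.1 k).resolve_left (by norm_num)
      exact_mod_cast this)⟩
  lift analyticOrderAt L 1 to ℕ using ne_top_of_le_ne_top ENat.one_ne_top o with k e
  exact ⟨k, by exact_mod_cast o, ar_md m' h e.symm⟩

/-- **three does not divide the quotient** -/
theorem nd3 (inv : INV) (kk : KK1) (s0 : SU0) (hm : GlobalMinimal E) {L : ℂ → ℂ}
    (hE : IsHasseWeil E L) {k n : ℕ} (hk : k ≤ 1) (o : analyticOrderAt L 1 = k)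
    {P : Fin k → E.toAffine.Point} (hP : IsBasisModTorsion E P) (f : Finite (Sha E))
    (e : iteratedDeriv k L 1 / (k.factorial : ℂ) = (n : ℂ) * ((realPeriod E * regulator E P *
      (Nat.card (Sha E) : ℝ) * (tamagawaProduct E : ℝ) / (torsionOrder E : ℝ) ^ 2 : ℝ) : ℂ))
    (on : Onto3 E) (tw : ∃ L', IsHasseWeil (twist E (-3)) L' ∧ analyticOrderAt L' 1 ≤ 1) :
    ¬ 3 ∣ n := by
  obtain ⟨A, B, u, v, s, t, m⟩ := P014T.Sm.ex_md E
  obtain ⟨L', x, y⟩ := tw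
  obtain ⟨k', l, a⟩ := ar_tw m (d := -3) (by decide) (by exact_mod_cast x) y
  exact ndv inv hm (P014T.Lk.hw hE) m hk o
    (kk A B m.hD (s0 E A B u v s t m on) k hk k' l (ar_md m hE o) a) hP f e

end Vale.Agent.P014Y.Top
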