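import Vale.Agent.P014Y.Fin2
import Vale.Agent.P014Y.Top3

/-! # P014Y: the text for all curves -/

set_option autoImplicit false
set_option linter.all false

noncomputable section

namespace Vale.Agent.P014Y.Top

open Vale.Agent.P014 Vale.Agent.P014T Vale.Agent.P014U Vale.Agent.P014U.Top
open P014X (HasCM)

/-- the formula up to a natural number prime to six -/
def BSD6 : Prop :=
  ∀ (E : WeierstrassCurve ℚ) [E.IsElliptic], GlobalMinimal E → (∃! L, IsHasseWeil E L) ∧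
  ∀ L, IsHasseWeil E L → ∀ r : ℕ, r ≤ 1 → analyticOrderAt L 1 = r →
    Module.finrank ℤ E.toAffine.Point = r ∧ Finite (Sha E) ∧
    (∃ P : Fin r → E.toAffine.Point, IsBasisModTorsion E P) ∧
    ∀ P : Fin r → E.toAffine.Point, IsBasisModTorsion E P → ∃ n : ℕ, n.Coprime 6 ∧
      iteratedDeriv r L 1 / (r.factorial : ℂ) = (n : ℂ) * ((realPeriod E * regulator E P *
        (Nat.card (Sha E) : ℝ) * (tamagawaProduct E : ℝ) / (torsionOrder E : ℝ) ^ 2 : ℝ) : ℂ) ∧
      (HasCM E ∨ (∃ i j : ℕ, n * Nat.card (Sha E) = 2 ^ i * 3 ^ j) → n = 1)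

theorem bsd6 (bs : P014X.Top.BSDM) (inv : INV) (kk : KK fun _ _ _ => True) : BSD6 := fun E _ hm => by
  have h := bsdy (C := fun _ => True) bs inv kk (fun _ _ _ _ _ _ _ _ _ x => x) E hm
  refine ⟨h.1, fun L hL r r1 o => ?_⟩
  obtain ⟨k1, k2, k3, k4⟩ := h.2 L hL r r1 o
  refine ⟨k1, k2, k3, fun P b => ?_⟩
  obtain ⟨n, d, e, w, t⟩ := k4 P b
  exact ⟨n, Nat.Coprime.mul_right (k := n) (m := 2) (n := 3) d.coprime_two_right
    (Nat.prime_three.coprime_iff_not_dvd.2 (t trivial)).symm, e,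
    fun c => c.elim (fun c => w (.inl c)) fun ⟨_, _, c⟩ => one_of_pow d (t trivial) c⟩

/-- all cases together -/
theorem bsd6_of (bs : P014X.Top.BSDM) (H : Cmn) (s : ADS) (d : ADD) (pa : PA2) (an : RAN) : BSD6 :=
  bsd6 bs H.inv (kk_all (kk_irr H s d pa) (kkr H an))

end Vale.Agent.P014Y.Top
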