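import Vale.Agent.P014X.Cm.Red
import Vale.Agent.P014U.X4M.TE.Line
import Vale.Agent.P014U.Cp.One

/-! # P014Y: the quotient by a rational cyclic group; a curve with a non split extension -/

set_option autoImplicit false
set_option linter.all false

open Matrix
open scoped Classical

noncomputable section

namespace Vale.Agent.P014Y.Ns

open Vale.Agent.P022 P027H P004K P004K.Rc
open P027M.M hiding pp
open P004M.TE (al Pt ga pa pa_inj)
open P027M.K (TM)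

/-- **the quotient of a curve by a stable cyclic group** -/
theorem quo {A B : ℤ} (h : 4 * A ^ 3 + 27 * B ^ 2 ≠ 0) {m : ℕ} (m0 : 0 < m) {x : Pt A B}
    (hx : m • x = 0) (st : ∀ g, ∃ k : ℤ, ga g x = k • x) :
    ∃ A' B' : ℤ, 4 * A' ^ 3 + 27 * B' ^ 2 ≠ 0 ∧
      {p : ℕ | p.Prime ∧ al A B p ≠ al A' B' p}.Finite ∧ ∃ ψ : Pt A B →+ Pt A' B',
      (∀ g y, ψ (ga g y) = ga g (ψ y)) ∧ ∀ y, ψ y = 0 ↔ ∃ k : ℤ, y = k • x := by
  obtain ⟨Λ, l, h2, h3, -⟩ := exists_unif A B (by exact_mod_cast h)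
  obtain ⟨ex, -, k0, v⟩ := Hg.un_iff l h2 h3
  obtain ⟨u1, u2, u3⟩ := un A B Λ l h2 h3
  obtain ⟨M, hM⟩ : ∃ M : Submodule ℤ ℂ, ∀ z, z ∈ M ↔ ∃ k : ℤ, Un Λ z (k • x) :=
    ⟨AddSubgroup.toIntSubmodule ((AddSubgroup.zmultiples (pa io x)).comap ex), fun z =>
      exists_congr fun k => by rw [v, map_zsmul]; exact eq_comm⟩
  have le : Λ ≤ M := fun z a => (hM z).2 ⟨0, by rw [v, zero_zsmul, map_zero]; exact (k0 z).2 a⟩
  have lat : IsLat M := l.of_between le m0 fun z a => by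
    obtain ⟨k, a⟩ := (hM z).1 a
    rw [← k0, ← nsmul_eq_mul, map_nsmul, (v _ _).1 a, ← map_nsmul, smul_comm, hx, smul_zero,
      map_zero]
  have f : ∀ σ : ℂ ≃+* ℂ, σ (g2 M) = g2 M ∧ σ (g3 M) = g3 M := fun σ => by
    obtain ⟨χ, t⟩ := P014T.Ig.Hm.ex_tr l h2 h3 σ
    obtain ⟨g, e⟩ := ex_g σ
    obtain ⟨N, n, t'⟩ := (tq_tr t).sup le lat
    obtain rfl : N = M := le_antisymm (fun w a => by
      obtain ⟨z, b⟩ := t.surj w
      obtain ⟨k, c⟩ := (hM z).1 ((t'.mem z).1 (mem_of_eq (add_mem (n b) a) (by ring)))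
      obtain ⟨j, d⟩ := st g
      have := u3 _ _ σ g χ c e t
      rw [map_zsmul, d, smul_smul] at this
      exact mem_of_eq (sub_mem ((hM _).2 ⟨_, this⟩) (le b)) (by ring)) fun w a => by
      obtain ⟨k, c⟩ := (hM w).1 a
      obtain ⟨j, d⟩ := st g⁻¹
      obtain ⟨z, b⟩ := u1 ((k * j) • x)
      have := u3 _ _ σ g χ b e t
      rw [mul_smul, ← d, map_zsmul, ← P004M.TE.ga_mul, mul_inv_cancel, P004M.TE.ga_one] at this
      exact mem_of_eq (sub_mem ((t'.mem z).2 ((hM z).2 ⟨_, b⟩)) (n ((u2 _ _ _ _ this c).2.1 rfl)))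
        (by ring)
    simpa [eq_comm] using t'.g23
  obtain ⟨a, ea⟩ := rat_of_fixed fun σ => (f σ).1
  obtain ⟨b, eb⟩ := rat_of_fixed fun σ => (f σ).2
  have a0 : (a.den : ℂ) ≠ 0 := Nat.cast_ne_zero.2 a.den_nz
  have b0 : (b.den : ℂ) ≠ 0 := Nat.cast_ne_zero.2 b.den_nz
  have c0 : (2 * a.den * b.den : ℚ) ≠ 0 := by positivity
  have c1 : ((2 * a.den * b.den : ℚ) : ℂ) ≠ 0 := Rat.cast_ne_zero.2 c0
  have H := hom_scl (inv_ne_zero c1) M
  have e2 : g2 (scl ((2 * a.den * b.den : ℚ) : ℂ)⁻¹ M) =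
      -4 * (-4 * a.den ^ 3 * b.den ^ 4 * a.num : ℤ) := by
    rw [H.g2, inv_inv, ea, Rat.cast_def a]
    push_cast
    field_simp
    ring
  have e3 : g3 (scl ((2 * a.den * b.den : ℚ) : ℂ)⁻¹ M) =
      -4 * (-16 * a.den ^ 6 * b.den ^ 5 * b.num : ℤ) := by
    rw [H.g3, inv_inv, eb, Rat.cast_def b]
    push_cast
    field_simp
    ring
  have l' := H.isLat lat
  generalize (2 * a.den * b.den : ℚ) = c at c0 c1 H e2 e3 l'
  have mm : ∀ z, ((c⁻¹ : ℚ) : ℂ) * z ∈ scl (c : ℂ)⁻¹ M ↔ z ∈ M := fun z => by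
    rw [mem_scl, inv_inv, Rat.cast_inv, mul_inv_cancel_left₀ c1]
  obtain ⟨φ, i, q, -, fi, -⟩ := P014T.Ig.hom l' e2 e3 l h2 h3 (inv_ne_zero c0) fun z hz =>
    (mm z).2 (le hz)
  have d' := P014X.Cm.disc_of l' e2 e3
  refine ⟨_, _, d', P014X.Cm.ae_of d' h φ q, φ, q, fun y => ?_⟩
  obtain ⟨z, u⟩ := u1 y
  obtain ⟨-, w2, -⟩ := un _ _ _ l' e2 e3
  have o := (w2 _ 0 _ 0 (i z y u) ⟨fun _ => rfl, fun a => absurd (zero_mem _) a⟩).2
  rw [o, sub_zero, mm, hM]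
  exact exists_congr fun k => ⟨fun a => (u2 _ _ _ _ u a).2.2 (by simp), fun a => a ▸ u⟩

/-- an eigenvector of an involution -/
theorem eig {R : Type} [CommRing R] [IsLocalRing R] (two : IsUnit (2 : R))
    {C : Matrix (Fin 2) (Fin 2) R} (tr : C 1 1 = -C 0 0) (sq : C 0 0 * C 0 0 + C 0 1 * C 1 0 = 1)
    {η : R} (e : η * η = 1) : ∃ (v : Fin 2 → R) (j : Fin 2), v j = 1 ∧ C *ᵥ v = η • v ∧
      ∀ s, C *ᵥ s = η • s → s = s j • v := by
  have k : IsUnit ((1 + η * C 0 0) + (1 - η * C 0 0)) := by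
    rwa [show (1 + η * C 0 0) + (1 - η * C 0 0) = 2 by ring]
  have c : ∀ s : Fin 2 → R, C *ᵥ s = η • s ↔ C 0 0 * s 0 + C 0 1 * s 1 = η * s 0 ∧
      C 1 0 * s 0 - C 0 0 * s 1 = η * s 1 := fun s => by
    rw [funext_iff, Fin.forall_fin_two]
    simp only [mulVec, dotProduct, Fin.sum_univ_two, Pi.smul_apply, smul_eq_mul, tr, neg_mul,
      sub_eq_add_neg]
  simp only [c]
  rcases IsLocalRing.isUnit_or_isUnit_of_isUnit_add k with u | u <;>
    obtain ⟨w, hw⟩ := u.exists_right_inv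
  · refine ⟨![1, η * C 1 0 * w], 0, rfl, ⟨?_, ?_⟩, fun s ⟨_, b⟩ => ?_⟩
    · simp only [cons_val_zero, cons_val_one]
      linear_combination (η * w) * sq + (η - C 0 0) * hw - (C 0 0 * w) * e
    · simp only [cons_val_zero, cons_val_one]
      linear_combination (-C 1 0) * hw - (C 1 0 * w) * e
    · funext i
      fin_cases i
      · simp
      · show s 1 = s 0 * (η * C 1 0 * w)
        linear_combination (-η * w) * b - s 1 * hw - (s 1 * w) * e
  · refine ⟨![η * C 0 1 * w, 1], 1, rfl, ⟨?_, ?_⟩, fun s ⟨a, _⟩ => ?_⟩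
    · simp only [cons_val_zero, cons_val_one]
      linear_combination (-C 0 1) * hw - (C 0 1 * w) * e
    · simp only [cons_val_zero, cons_val_one]
      linear_combination (η * w) * sq + (η + C 0 0) * hw + (C 0 0 * w) * e
    · funext i
      fin_cases i
      · show s 0 = s 1 * (η * C 0 1 * w)
        linear_combination (-η * w) * a - s 0 * hw - (s 0 * w) * e
      · simp

section

open Vale.Agent.P014U
open X4M.TE (Tm bs rho cp_rho hdiv no_line exists_isConj conj_sq det_conj ga_mul ga_one)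
open Cp (ab vv ga_vv vv_inj ex_vv vv_two)

theorem hq {A B : ℤ} (h : 4 * A ^ 3 + 27 * B ^ 2 ≠ 0) : 4 * (A : ℚ) ^ 3 + 27 * (B : ℚ) ^ 2 ≠ 0 := by
  exact_mod_cast h

variable [Pp] {A B : ℤ}

/-- the eigenlines of a complex conjugation on the Tate module -/
theorem ex_e (hD : 4 * (A : ℚ) ^ 3 + 27 * (B : ℚ) ^ 2 ≠ 0) {c : GQ} (hc : St.IsConj c) {η : ℤ}
    (e : η * η = 1) : ∃ t : Tm (A : ℚ) (B : ℚ), TM.cp 1 t ≠ 0 ∧ rho _ _ c t = η • t ∧
      ∀ s, rho _ _ c s = η • s → ∃ a : ℤ_[pp], s = a • t := by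
  have hs : X4M.TE.mt hD c * X4M.TE.mt hD c = 1 := by rw [← map_mul, conj_sq hD hc, map_one]
  have s00 := congrFun (congrFun hs 0) 0
  have s01 := congrFun (congrFun hs 0) 1
  have d := det_conj hD hc
  simp only [mul_apply, Fin.sum_univ_two, one_apply_eq, ne_eq, zero_ne_one, not_false_eq_true,
    one_apply_ne, det_fin_two] at s00 s01 d
  obtain ⟨v, j, hj, hv, k⟩ := eig unit_two (C := X4M.TE.mt hD c) (by
    linear_combination X4M.TE.mt hD c 1 0 * s01 - X4M.TE.mt hD c 1 1 * s00 +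
      X4M.TE.mt hD c 0 0 * d) s00 (η := η) (by exact_mod_cast e)
  have m : ∀ s, (bs hD).equivFun (rho _ _ c s) = X4M.TE.mt hD c *ᵥ (bs hD).equivFun s := fun s =>
    (LinearMap.toMatrix_mulVec_repr (bs hD) (bs hD) (rho _ _ c) s).symm
  refine ⟨(bs hD).equivFun.symm v, fun h0 => ?_, (bs hD).equivFun.injective ?_, fun s a =>
    ⟨(bs hD).equivFun s j, (bs hD).equivFun.injective ?_⟩⟩
  · obtain ⟨y, hy⟩ := TM.cp_eq_zero_iff.1 h0
    have := congrFun (congrArg (bs hD).equivFun hy) j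
    rw [LinearEquiv.apply_symm_apply, hj, map_smul, Pi.smul_apply, smul_eq_mul, pow_one] at this
    exact PadicInt.irreducible_p.not_isUnit (IsUnit.of_mul_eq_one _ this.symm)
  · rw [m, map_zsmul, LinearEquiv.apply_symm_apply, hv, Int.cast_smul_eq_zsmul]
  · rw [map_smul, LinearEquiv.apply_symm_apply]
    exact k _ (by rw [← m, a, map_zsmul, Int.cast_smul_eq_zsmul])

theorem zero_of {X : Type} [AddCommGroup X] {w w' : X} {k : ℕ} {η : ℤ} (e : η * η = 1)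
    (h : pp ^ k • w = 0) (a : w' = η • w) (b : w' = -η • w) : w = 0 := by
  have := congrArg (η • ·) (a.symm.trans b)
  simp only [neg_smul, smul_neg, smul_smul, e, one_smul] at this
  exact half h (by rw [two_nsmul, ← eq_neg_iff_add_eq_zero]; exact this)

omit [Pp] in
theorem alg {X : Type} [AddCommGroup X] {η : ℤ} (e : η * η = 1) (a b : X) :
    a + η • b = η • (b + η • a) ∧ b - η • a = -η • (a - η • b) ∧ 2 • (a - b) = a + η • η • a - 2 • b ∧
      ∀ n : ℕ, n • a = 0 → n • b = 0 → n • (a - η • b) = 0 := by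
  refine ⟨by rw [smul_add, smul_smul, e, one_smul, add_comm], ?_, ?_, fun n p q => ?_⟩
  · rw [smul_sub, smul_smul, neg_mul, e, neg_smul, neg_smul, one_smul]
    abel
  · rw [smul_smul, e, one_smul, smul_sub, two_nsmul]
  · rw [smul_sub, smul_comm n η b, p, q, smul_zero, sub_self]

theorem vv_smul (hD : 4 * (A : ℚ) ^ 3 + 27 * (B : ℚ) ^ 2 ≠ 0) (k : ℕ) (x : Fin 2 → ZMod pp) :
    vv hD ((k : ZMod pp) • x) = k • vv hD x := by rw [Nat.cast_smul_eq_nsmul, map_nsmul]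

/-- **a curve of the isogeny class with a non split extension** -/
theorem nsp0 (h : 4 * A ^ 3 + 27 * B ^ 2 ≠ 0) {x : Fin 2 → ZMod pp} (x0 : x ≠ 0)
    (hx : ∀ g, ∃ t : ZMod pp, ab (hq h) g *ᵥ x = t • x) :
    ∃ A' B' : ℤ, ∃ h' : 4 * A' ^ 3 + 27 * B' ^ 2 ≠ 0,
      {p : ℕ | p.Prime ∧ al A B p ≠ al A' B' p}.Finite ∧
      (∃ y ≠ 0, ∀ g, ∃ t : ZMod pp, ab (hq h') g *ᵥ y = t • y) ∧
      ∃ g g', ab (hq h') g * ab (hq h') g' ≠ ab (hq h') g' * ab (hq h') g := by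
  have hD := hq h
  obtain ⟨c, hc⟩ := exists_isConj hD
  have cc := conj_sq hD hc
  have c2 : ∀ w : Pt A B, ga c (ga c w) = w := fun w => by rw [← ga_mul, cc, ga_one]
  obtain ⟨η, e, hu⟩ : ∃ η : ℤ, η * η = 1 ∧ ga c (vv hD x) = -η • vv hD x := by
    obtain ⟨t, ht⟩ := hx c
    have t2 : (t * t - 1) • x = 0 := by
      rw [sub_smul, mul_smul, ← ht, ← mulVec_smul, ← ht, mulVec_mulVec, ← map_mul, cc, map_one,
        one_mulVec, one_smul, sub_self]
    rcases mul_self_eq_one_iff.1 (sub_eq_zero.1 ((smul_eq_zero.1 t2).resolve_right x0)) with r | r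
    · exact ⟨-1, rfl, by rw [ga_vv, ht, r]; simp⟩
    · exact ⟨1, rfl, by rw [ga_vv, ht, r]; simp⟩
  obtain ⟨t, t0, ct, ht⟩ := ex_e hD hc e
  have cy : ∀ n, ga c (TM.cp n t) = η • TM.cp n t := fun n => by rw [← cp_rho, ct, map_zsmul]
  have cyc : ∀ n (w : Pt A B), pp ^ n • w = 0 → ga c w = η • w → ∃ k : ℤ, w = k • TM.cp n t := by
    intro n w a b
    obtain ⟨s, rfl⟩ := TM.exists_cp (hdiv hD) a
    obtain ⟨i, hi⟩ := (unit_two).exists_right_inv
    obtain ⟨r, hr⟩ := ht (s + η • rho _ _ c s) (TM.ext fun l => by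
      rw [cp_rho, map_zsmul, map_add, map_zsmul, cp_rho, map_add, map_zsmul, c2, add_comm]
      exact (add_comm _ _).trans (alg e _ _).1)
    refine ⟨P027M.K.ap (i * r) n, ?_⟩
    rw [natCast_zsmul, ← TM.cp_smul, ← sub_eq_zero, ← map_sub]
    refine half (TM.pow_smul_cp _ n) ?_
    rw [map_sub, (alg e _ _).2.2.1, ← map_nsmul _ 2 ((i * r) • t), ← Nat.cast_smul_eq_nsmul ℤ_[pp],
      Nat.cast_ofNat, smul_smul 2, ← mul_assoc, hi, one_mul, ← hr, map_add, map_zsmul, cp_rho, b,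
      sub_self]
  obtain ⟨n, p0, p1⟩ : ∃ n, (∀ g, ga c (ga g (TM.cp n t)) = η • ga g (TM.cp n t)) ∧
      ¬ ∀ g, ga c (ga g (TM.cp (n + 1) t)) = η • ga g (TM.cp (n + 1) t) := by
    by_contra k
    push Not at k
    have all : ∀ n g, ga c (ga g (TM.cp n t)) = η • ga g (TM.cp n t) := fun n => by
      induction n with
      | zero => intro g; rw [TM.cp_zero, map_zero, map_zero, zsmul_zero]
      | succ n ih => exact k n ih
    exact no_line hD t0 fun g => ht _ (TM.ext fun l => by rw [map_zsmul]; exact all l g)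
  have tg : ∀ l g, pp ^ l • ga g (TM.cp l t) = 0 := fun l g => by
    rw [← map_nsmul, TM.pow_smul_cp, map_zero]
  obtain ⟨A', B', h', ae, ψ, q, k⟩ := quo h (pow_pos pp_pos n) (TM.pow_smul_cp t n) fun g =>
    cyc n _ (tg n g) (p0 g)
  have kz : ∀ w l, ψ w = 0 → pp ^ l • w = 0 → ga c w = -η • w → w = 0 := fun w l a b d => by
    obtain ⟨j, rfl⟩ := (k w).1 a
    exact zero_of e b (by rw [map_zsmul, cy, smul_comm]) d
  obtain ⟨y, hy⟩ := ex_vv (hq h') (t := ψ (vv hD x)) (by rw [← map_nsmul, vv_two, map_zero])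
  obtain ⟨z, hz⟩ := ex_vv (hq h') (t := ψ (TM.cp (n + 1) t)) (by
    rw [← map_nsmul, pow_one, TM.cp_succ]
    exact (k _).2 ⟨1, (one_smul _ _).symm⟩)
  refine ⟨A', B', h', ae, ⟨y, fun y0 => x0 (vv_inj hD ?_), fun g => ?_⟩, by_contra fun ab0 => p1 fun g => ?_⟩
  · rw [map_zero]
    exact kz _ 1 (by rw [← hy, y0, map_zero]) (vv_two hD x) hu
  · obtain ⟨s, hs⟩ := hx g
    refine ⟨s, vv_inj (hq h') ?_⟩
    rw [← ga_vv, hy, ← q, ga_vv, hs, ← ZMod.natCast_zmod_val s, vv_smul, vv_smul, map_nsmul, hy]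
  · push Not at ab0
    refine sub_eq_zero.1 (kz _ (n + 1) ?_ ?_ ?_)
    · rw [map_sub, map_zsmul, q, q, ← hz, ga_vv, ga_vv, mulVec_mulVec, ab0, ← mulVec_mulVec,
        ← ga_vv, ← ga_vv, ← ga_vv, hz, ← q c, cy, map_zsmul, map_zsmul, sub_self]
    · exact (alg e _ _).2.2.2 _ (by rw [← map_nsmul, tg, map_zero]) (tg _ g)
    · rw [map_sub, c2, map_zsmul]
      exact (alg e _ _).2.1

end

end Vale.Agent.P014Y.Ns
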