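import Vale.Agent.P014Y.St2
import Vale.Agent.P014Y.Nsp0

/-! # P014Y: the reducible case is reduced to a non abelian image -/

set_option autoImplicit false
set_option linter.all false

open Matrix

noncomputable section

namespace Vale.Agent.P014Y.Top

open Vale.Agent.P014U Vale.Agent.P014U.Top
open F (hq)

section

variable [Pp]

/-- the image modulo `pp` is not abelian -/
def Nab {A B : ℤ} (h : El A B) : Prop :=
  ∃ g g', Cp.ab (hq h) g * Cp.ab (hq h) g' ≠ Cp.ab (hq h) g' * Cp.ab (hq h) g

/-- a curve of the isogeny class with a non split extension -/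
def NSP : Prop := ∀ (A B : ℤ) (h : El A B), ¬ Irr h →
  ∃ A' B', ∃ h' : El A' B', Ae A B A' B' ∧ ¬ Irr h' ∧ Nab h'

theorem nsp : NSP := fun A B h n => by
  simp only [Irr, not_forall, not_exists, not_not] at n
  obtain ⟨x, x0, hx⟩ := n
  obtain ⟨A', B', h', ae, ⟨y, y0, hy⟩, na⟩ := Ns.nsp0 h x0 hx
  refine ⟨A', B', h', ae, fun i => ?_, na⟩
  obtain ⟨g, k⟩ := i y y0
  exact (hy g).elim k

end

/-- **the reducible case, non abelian image** -/
def KKN : Prop := KK fun _ _ h => ¬ Irr h ∧ Nab h

end Vale.Agent.P014Y.Top
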