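import Vale.Agent.P014Y.Wd
import Vale.Agent.P014Y.Base
import Vale.Agent.P014Y.Kt.St
import Vale.Agent.P014T.Kx.Tw

/-! # P014Y: the top level (rows) -/

set_option autoImplicit false
set_option linter.all false

open Matrix
open scoped Classical

noncomputable section

namespace Vale.Agent.P014Y.Top

open Vale.Agent.P014U Vale.Agent.P014U.Top
open F (Crv Fld M2 sd hq)
open P014T.Sm (Md)
open P014T.Kx.Tw (Tq)
open P004S (Null)

section

variable [Pp]

/-- the second representation is the twist of the first one by `d` -/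
def Cj (d : ℤ) {A B A' B' : ℤ} (h : El A B) (h' : El A' B') : Prop :=
  ∃ M : M2 ℤ_[pp], IsUnit M.det ∧ ∀ g, X4M.TE.mt (hq h') g * M = sd d g • (M * X4M.TE.mt (hq h) g)

/-- transport of the image -/
def SUR : Prop := ∀ (A B A' B' : ℤ) (h : El A B) (h' : El A' B'),
  (Ae A B A' B' → Sur h → Cj 1 h h') ∧ (∀ d, Tq d A B A' B' → Cj d h h') ∧
  (∀ d d' A'' B'' (h'' : El A'' B''), d ≠ 0 → d' ≠ 0 → Cj d h h' → Cj d' h' h'' → Cj (d * d') h h'') ∧
  ∀ d, Cj d h h' → Sur h → d = 1 ∨ pp = 3 ∧ d = -3 ∨ (∃ g, sd d g = -1 ∧ X4M.TE.mt (hq h) g = 1) → Sur h'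

/-- the discrepancy is not negative and the same for isogenous curves -/
def MT : Prop := ∀ A B A' B' : ℤ, El A B → El A' B' → Ae A B A' B' → ∀ r ≤ 1, Ar A B r →
  ∃ v, 0 ≤ v ∧ Di A B r v ∧ Di A' B' r v

end

/-- the word of the statement -/
def SU0 : Prop := ∀ (E : WeierstrassCurve ℚ) [E.IsElliptic] (A B : ℤ) u r s t (m : Md E A B u r s t),
  Onto3 E → Sur m.hD

/-- almost all twists have analytic rank at most one -/
def GLD : Prop := ∀ A B : ℤ, El A B →
  Null fun d => d % 4 = 1 ∧ Squarefree d ∧ ∀ k ≤ 1, ¬ Ar (A * d ^ 2) (B * d ^ 3) k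

/-- **the target of the first stage** -/
def KK1 : Prop := ∀ (A B : ℤ) (h : El A B), Sur h → ∀ r ≤ 1, ∀ r' ≤ 1, Ar A B r →
  Ar (A * (-3) ^ 2) (B * (-3) ^ 3) r' → Di A B r 0

end Vale.Agent.P014Y.Top
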